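import Vale.Agent.P270Q.Defs
import Vale.Agent.P270F.Nh43
import Vale.Agent.P270G.End0

/-!
# P270Q, row CTQ: the contraction of the null hypersurfaces
-/

open Set Filter Function
open Vale.Agent.P272.K Vale.Agent.P285.H281.FD Vale.Agent.P281Z Vale.Agent.P280Z
open Vale.Agent.P285N Vale.Agent.P285W.J Vale.Agent.P285W.Bs
open Vale.Agent.P270G (NUU RGN INS Nz)

namespace Vale.Agent.P270Q

theorem ctq_of (nuu : NUU) (rgn : RGN) (ins : INS) (dn : DNQ) (fr : FRM) {d : ℕ} (hd : d ≤ 4)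
    (mm : MM1 d) : CTQ d := by
  intro T hT V Q D₀ t q C₀ M g hF ν D s n1 hν hN lD sD nz
  obtain ⟨κ, ι, _, A, m, N, π, S, Λ, hπ, y, h, ho, hy, e⟩ :=
    dn d T hT V Q D₀ t q C₀ M g ν D s n1 hν lD sD nz
  have ok := h.cw.ok
  have nl := nf_of hT ok.prj h.lb h.nef
  have dz := dg_mul hT (dg_pow hT (hT.c1.deg A.Z (P277.HD.pull π Q.L)) ν)
    (dg_pow hT (hT.c1.deg A.Z Λ) (d - ν))
  rw [Nat.add_sub_cancel' n1] at dz
  obtain ⟨C, hC⟩ := (mm T hT κ ι A m N _ h.cw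
    ((nl.mn.pow ν).mul ((bf_nf hT (h.fb.bf T)).mn.pow (d - ν))) dz h.neg).resolve_right
    (fr d hd T hT κ ι A m N hF _ Λ ν n1 h (by
      rw [hT.c1.pull hπ.hol _ g.ok.bir.res.lbL]
      exact nuu.tr T hT _ _ _ π S hπ _ hN))
  have ok' := hC.cw.ok
  have nΛ := bf_nf hT (hC.fb.bf T)
  refine ⟨C.B.Z, _, _, hπ.comp rem hC.md, T.c1 _ C.Λ, ok'.prj, hC.fb.bf T, hC.fb.kc hT ok'.conn,
    fun U p hp cU hW h0 => ?_⟩
  by_cases im : ∃ x, Imm d (d + 1) p x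
  swap
  · exact Ps.van0 hT hp (not_exists.1 im) _
  have hq := hC.md.hol.comp hp
  have r1 : range (fun x => C.π (p x)) ⊆ (off A.G)ᶜ := by
    rintro _ ⟨x, rfl⟩ c
    obtain (k | ⟨w, ⟨k, -, w1⟩, w2⟩) | k := hW x
    exacts [(ho _ c).1 k, c k (hπ.inj (ho _ c).1 w2 ▸ w1), k (ho _ c).2]
  have r2 : range (fun x => C.π (p x)) ⊆
      Nz T A (T.c1 A.Z (P277.HD.pull π Q.L) ^ ν * T.c1 A.Z Λ ^ (d - ν)) := by
    by_cases im' : ∃ x, Imm d (d + 1) (fun x => C.π (p x)) x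
    · refine P270F.nz_of hT ok h.cw.conn hq cU.conn im' r1 ?_
      rw [show T.c1 A.Z (P277.HD.pull π Q.L) ^ ν * T.c1 A.Z Λ ^ (d - ν) = _ from e,
        hT.rg.pull_comp hp hC.md.hol _ fun _ => rfl,
        ← hT.rg.pull_comp hC.md.hol hπ.hol (hπ.comp rem hC.md).hol fun _ => rfl]
      exact h0 y hy
    rintro _ ⟨x, rfl⟩
    by_contra k
    obtain ⟨w, w1, w2⟩ := ((((nim _ _ U _ p cU.conn hp).1 im).freq x).and_eventually
      (hq.cont.continuousAt.eventually (hC.md.thin.closed.isOpen_compl.mem_nhds k))).exists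
    exact im' ⟨w, .comp (hC.md.hol.at _) (hp.at _) (hC.md.imm w2) (not_not.1 w1)⟩
  have dz' := dg_mul hT (dg_pow hT (hT.c1.deg _ C.Λ) d) (dg_pow hT (hT.c1.deg _ C.Q) 0)
  have := ins d T hT _ _ C.B C.m C.N U p hp _ ok' cU
    ((nΛ.mn.pow d).mul ((nf_of hT ok'.prj hC.lbQ hC.nfQ).mn.pow 0)) dz' (by
      rintro _ ⟨x, rfl⟩
      obtain ⟨l, l1, l2⟩ := (hC.sp _).1 (r2 ⟨x, rfl⟩)
      exact ⟨l, rgn d T hT _ _ C.B C.m C.N _ C.Λ C.Q l d 0 ok' hC.fb hC.lbQ hC.nfQ hC.rig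
        (by omega) rfl, l2⟩)
  rwa [pow_zero, mul_one] at this

end Vale.Agent.P270Q
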