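import Vale.Agent.P270Q.Defs
import Vale.Agent.P270G.Dn0

/-!
# P270Q, row DNQ: the Calabi-Yau pair above a divisor
-/

open Set Filter
open Vale.Agent.P272.K Vale.Agent.P285.H281.FD Vale.Agent.P281Z Vale.Agent.P280Z
open Vale.Agent.P277Z.Slc (IsDiv lin triv isLB_triv)
open Vale.Agent.P277.HD (pull)
open Vale.Agent.P285N Vale.Agent.P285N.Tp Vale.Agent.P285N.Tp.Lr
open Vale.Agent.P285W Vale.Agent.P285S.Ca Vale.Agent.P270G

noncomputable section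

namespace Vale.Agent.P270Q

theorem bpfA {n : ℕ} {V : Mf n} {Q : Rd V} (hQ : Q.Ok) (k : ℕ) : Bpf n (Q.A.pow k) := by
  have hr := hQ.bir.res
  intro y
  obtain ⟨c, hc⟩ := hr.lbA.cover y
  obtain ⟨a, ha⟩ := hr.free c _ hc
  have k1 := hr.sec a
  exact ⟨fun b x => Q.S a b x ^ k, ⟨fun b e x he hb => (k1.holo b e x he hb).pow k,
    fun b b' x hb hb' => (congrArg (· ^ k) (k1.change b b' x hb hb')).trans (mul_pow _ _ _)⟩,
    fun b hb => pow_ne_zero k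
      ((nz_iff hr.lbA (fun b c => (hr.sec a).change b c _) hc).2 ha b hb)⟩

theorem dnq_of (hU : NUU) (hG : P270G.GEN) (hR : RGN) (hZ : ZNL) : DNQ := by
  intro d T hT V Q D t q C M g ν D₀ s₀ hν hN l₀ hs₀ n₀
  have hQ := g.ok
  have K := g.sub
  have := hQ.conn
  have r := hQ.bir.res
  obtain ⟨a, a0, u, u1, u2⟩ := g.eff
  have lC := lb_pow K.lb a
  have hC := (((EfH.thin_nz l₀ hs₀ n₀).union (EfH.thin_nz K.div.lb K.div.sec
    (GdfH.nz K.div.lb K.div.sec K.div.nz))).union (EfH.thin_nz r.lbE r.secE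
    (GdfH.nz r.lbE r.secE r.nzE))).union (EfH.thin_nz lC u1 (GdfH.nz lC u1 u2))
  have hB := hC
  obtain ⟨I, hI, -⟩ := Rs.idl (d + 1) V _ hB.1
  rw [← hI] at hB
  obtain ⟨R⟩ := Rs.res (d + 1) (d + 1) V univ I an_univ
    (subM_open (by rw [← compl_eq_univ_sdiff]; exact hB.closed.isOpen_compl))
  have h1 : Modif (d + 1) R.π _ := ⟨hB, R.ovr⟩
  have hM := h1
  have hπ := hM.hol
  have ho : ∀ y ∈ off R.G, R.π y ∉ I.Z := fun y hy k => ((R.bad y).1 k).elim hy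
  have pY := R.prj hQ.prj
  have cY := hM.conn
  obtain ⟨m, Ω, k1, k2⟩ := Lr.core hQ K hM pY R.snc R.conn
    (fun y hy => h1.imm (ho y hy))
    (fun y hy => not_not.1 fun c => ho y hy (hI ▸ .inl (.inr c)))
    fun y hy => not_not.1 fun c => ho y hy (hI ▸ .inl (.inl (.inr c)))
  have t1 : ∀ y ∈ off R.G, NZ (C.pow a) u (R.π y) := fun y hy =>
    not_not.1 fun c => ho y hy (hI ▸ .inr c)
  obtain ⟨f, hf⟩ := ordu _ R.V _ R.G _ _ R.snc R.conn (hπ.lb lC) (hπ.sec u1) t1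
  have hy := Hyp.of_snc R.snc
  obtain ⟨O, σ, hO⟩ := hy.exists_div
  have lO := fun l => (hO l).lb
  have c1 : cls (d + 1) ((pull R.π C).pow a) = ∑ l, (f l : ℤ) • cls _ (O l) :=
    (P285S.Mm.RefH.cls_unit hy.dense (hπ.lb lC) (lb_lin lO _) (hπ.sec u1)
      (sec_mon (fun l => (hO l).sec) f) (fun _ _ hb k => mon_ne hO f hb fun l _ => k l)
      fun a b x ha hb => hf a x ha _ fun l => (hO l).leq _ x (hb l)).trans (cls_lin lO _)
  have c2 := (cls_pow (hπ.lb K.lb) 2).symm.trans (Xc.cls_eq _ _ _ m _ _ O σ k1.ok hO)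
  rw [cls_pow (hπ.lb K.lb)] at c1
  have lt : ∀ l, a * m l - 2 * f l < (a * (2 * q) : ℕ) := fun l => by
    have := mul_lt_mul_of_pos_left (k2 l) (Int.natCast_pos.2 a0)
    push_cast at this ⊢
    linarith [Int.natCast_nonneg (f l)]
  obtain ⟨Ω', ok⟩ := P285S.Mm.mkpr _ _ R.V R.G O σ (triv _) (fun l => a * m l - 2 * f l)
    (a * (2 * q)) cY pY R.snc hO isLB_triv (mul_pos a0 k1.ok.pos) (k1.ok.even.mul_left a)
    (fun l => (lt l).le) (by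
      simp only [cls_triv, sub_smul, mul_smul, Finset.sum_sub_distrib, ← Finset.smul_sum]
      rw [← c1, natCast_zsmul, ← add_sub_assoc, ← smul_add, ← mul_smul 2 q, ← c2]
      module)
  have cw : Cw _ _ _ := ⟨ok, lt, R.conn, 1, one_pos, (one_smul _ _).trans cls_triv⟩
  obtain ⟨k, hΛ⟩ := Dn0H.fb hQ k1
  have lL := hπ.lb r.lbL
  have fL := P285S.Tp.nf_comp hπ hQ.prj r.lbL (Dn0H.nf hQ)
  have nu : P285S.B2.Nu T R.V (T.c1 R.V (pull R.π Q.L)) ν :=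
    hT.c1.pull hπ _ r.lbL ▸ hU.nu T hT _ ν V R.V _ _ hM _ ⟨hQ.conn, hQ.prj⟩ pY
      (J.nf_of hT hQ.prj r.lbL (Dn0H.nf hQ)) hN
  have lA := lb_pow r.lbA k
  refine ⟨_, _, inferInstance, _, _, _, R.π, _, _, h1, T.c1 V (Q.A.pow k) ^ (d - ν),
    ⟨cw, lL, fL, nu, hΛ, fun l hl => ?_⟩,
    fun y hy => ⟨ho y hy, not_not.1 fun c => ho y hy (hI ▸ .inl (.inl (.inl c)))⟩,
    (J.bf_nf hT ⟨_, lA, bpfA hQ k, rfl⟩).mn.pow _, ?_⟩
  swap
  · rw [map_mul, map_pow, map_pow, ← hT.c1.pull hπ _ r.lbL, ← hT.c1.pull hπ _ lA]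
    rfl
  by_cases h : m l < 0
  · have k3 := hR d T hT _ _ _ _ _ _ _ _ l (d - ν) ν k1.ok hΛ lL fL (Dn0H.rig hQ k1 k) h (by omega)
    rw [mul_comm (_ ^ (d - ν))] at k3
    exact k3
  have mΛ := (J.bf_nf hT ⟨_, hΛ.lb, hΛ.bpf, rfl⟩).mn.pow (d - ν)
  have m2 := ((J.nf_of hT pY lL fL).mn.pow ν).mul mΛ
  have k3 := nu.2 _ mΛ
  rw [pow_succ', mul_assoc] at k3
  obtain ⟨y, y1, y2⟩ := hG _ R.V _ R.G l R.snc (R.conn l).nonempty
  obtain ⟨j, j1, j2⟩ := hZ _ T hT _ _ _ _ _ _ _ _ cw (hπ.lb lC) (hπ.sec u1) t1 m2 (by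
    have k4 := J.ef_int hT ⟨_, _, hπ.lb lC, hπ.sec u1, hy.dense.mono t1, rfl⟩ m2
    have k5 := J.mn_int hT ((J.nf_pull hT hπ (J.nf_of hT hQ.prj g.lb g.nef)).mn.mul m2)
    generalize (_ ^ ν * _ : T.H R.V) = z at k3 k4 k5 ⊢
    rw [hT.c1.pull hπ _ r.lbL, Dn0H.c1_iso hT r.lbL (lb_mul K.lb g.lb) g.iso,
      hT.c1.mul V _ _ K.lb g.lb, map_add, add_mul, map_add] at k3
    rw [hT.c1.pull hπ _ lC, hT.c1.pow V _ _ K.lb, map_smul, smul_mul_assoc, map_smul,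
      smul_eq_mul] at k4 ⊢
    nlinarith [mul_nonneg a.cast_nonneg k5]) y fun hz => by
      obtain ⟨b, hb⟩ := lC.cover (R.π y)
      obtain ⟨ζ, hζ, -⟩ := R.snc y
      obtain ⟨v, -, -, v3⟩ := hf b y hb ζ hζ
      refine hz b hb (v3.self_of_nhds.trans (mul_eq_zero_of_right _
        (Finset.prod_eq_zero (Finset.mem_univ l) ?_)))
      rw [(hζ l).mem.2 y1, zero_pow]
      rintro h0
      have := mul_nonneg (Int.natCast_nonneg a) (not_lt.1 h)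
      simp only [h0] at hl
      omega
  obtain rfl : j = l := by_contra fun c => y2 j c j2
  exact j1

/-- row DNQ -/
theorem dnq : DNQ := dnq_of nuu gen rgn znl

end Vale.Agent.P270Q
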