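import Vale.Agent.P270Q.Defs
import Vale.Agent.P270G.All
import Vale.Agent.P285M.Pen49b
import Vale.Agent.P285M.Pen41b

/-!
# P270Q, row FRM
-/

open Set Filter Function
open Vale.Agent.P272.K Vale.Agent.P285.H281.FD Vale.Agent.P281Z Vale.Agent.P280Z
open Vale.Agent.P277.HD (pull)
open Vale.Agent.P285W Vale.Agent.P285W.J Vale.Agent.P285W.Bs
open Vale.Agent.P285S Vale.Agent.P285S.Sf
open Vale.Agent.P285S.N4 (nze exz)
open Vale.Agent.P270G (zz nuu nzu ins_of)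
open Vale.Agent.P270K.St (Pencil)

namespace Vale.Agent.P270Q

theorem FrmH.pen {T : CT} (hT : T.OK) {n : ℕ} {V : Mf n} [Nonempty V.X] {W : Bd V.X}
    (lW : IsLB n W) (bW : Bpf n W) (h : T.c1 V W ≠ 0) : Pencil n W := by
  obtain ⟨x⟩ := ‹Nonempty V.X›
  obtain ⟨s, s1, s2⟩ := bW x
  obtain ⟨y, hy⟩ := not_forall.1 fun k => h (hT.c1.triv V W s lW s1 k)
  obtain ⟨t, t1, t2⟩ := bW y
  refine ⟨s, t, s1, t1, fun a b k => ?_⟩
  by_cases hb : b = 0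
  · obtain ⟨i, hi⟩ := lW.cover x
    refine ⟨i, x, hi, ?_⟩
    simp only [hb, zero_mul, add_zero]
    exact mul_ne_zero (k.resolve_right (not_not.2 hb)) (s2 i hi)
  · obtain ⟨i, hi⟩ := lW.cover y
    refine ⟨i, y, hi, ?_⟩
    have e : s i y = 0 := not_not.1 fun e => hy ((nz_iff lW (fun a b => s1.change a b y) hi).2 e)
    simp only [e, mul_zero, zero_add]
    exact mul_ne_zero hb (t2 i hi)

theorem frm_of (sgg : SGG) : FRM := by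
  rintro d hd T hT κ ι _ A m N hF L Λ ν hν h hN ⟨κ', ι', _, B, m', N', r, Λ', π, S, hπ, q⟩
  have cA := h.cw.ok.conn
  have cB := q.ok.conn
  have cY : Cp B.Z := ⟨cB, q.ok.prj⟩
  have hq := hπ.hol
  have lP := q.ok.lb
  have lW := lb_pow lP r
  have lM := hq.lb h.lb
  have r0 : (0 : ℝ) < r := Nat.cast_pos.2 q.pos
  have eW := hT.c1.pow B.Z _ r lP
  have nP : T.Nn B.Z (T.c1 B.Z B.P) := by
    have := nn_smul hT (inv_pos.2 r0).le (hT.c1.bpf _ _ lW q.bpf)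
    rwa [eW, inv_smul_smul₀ r0.ne'] at this
  have fM := Tp.nf_comp hq h.cw.ok.prj h.lb h.nef
  have l1 := lb_mul lP lM
  have nl := nf_of hT h.cw.ok.prj h.lb h.nef
  obtain ⟨hg, hb⟩ := P270G.Fyn49.dm hT cA h.fb
  have m0 : Mn T A.Z (zz T A.Z L Λ ν) := (nl.mn.pow ν).mul (hg.1.mn.pow _)
  have hz := mn_pull hT hq m0
  have dz : T.Dg B.Z d (T.pull hq (zz T A.Z L Λ ν)) := by
    have := dg_pull hT hq (dg_mul hT (dg_pow hT (nf_dg hT nl) ν) (dg_pow hT (nf_dg hT hg.1) (d - ν)))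
    rwa [Nat.add_sub_cancel' hν] at this
  obtain ⟨s, hs, rk⟩ := P285M.P49.rk_of lW (FrmH.pen hT lW q.bpf fun e => q.ne (by
    rwa [eW, smul_eq_zero_iff_right r0.ne'] at e))
  obtain ⟨X, u, S', P, γ, hu, pX, hγ, sγ, ef⟩ := P270U.mpa _ 1 B.Z _ s cY lW hs rk
  have cX := hu.conn
  have hp := hu.hol
  obtain ⟨c, c1, c2⟩ := Ps.fub1 hT cB ((hT.po.kah _).2 (InjH.kc hT cY)) hp
  obtain ⟨c', c3, c4⟩ := Ps.fub1 hT cA ((hT.po.kah _).2 (InjH.kc hT ⟨cA, h.cw.ok.prj⟩)) hq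
  obtain ⟨x₀, hx₀⟩ := (hu.pre_thin hu.thin).dense.nonempty
  obtain ⟨x₁, hx₁⟩ := (hπ.pre_thin hπ.thin).dense.nonempty
  have i1 : Imm _ _ u x₀ := hu.imm hx₀
  have mz := mn_pull hT hp hz
  obtain ⟨s₀, s1, s2⟩ := q.bpf x₁
  have z1 : T.int B.Z (T.c1 B.Z (B.P.pow r) * T.pull hq (zz T A.Z L Λ ν)) = 0 := by
    rw [eW, smul_mul_assoc, map_smul, q.nul, smul_zero]
  refine sgg T hT hF _ 1 B.Z X P.P ((r : ℝ) • T.pull hq (T.c1 A.Z L) + T.c1 B.Z (B.P.pow r)) κ' ι'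
    B m' N' (B.P.mul (pull π L)) (pull π L) _ _ modif_id (r : ℝ)⁻¹ u hp γ hγ P.H
    (T.pull hp (T.pull hq (zz T A.Z L Λ ν))) cY
    ⟨q.ok, q.klt, l1, fun H k1 k2 i => hT.kp _ _ (lb_mul (lb_pow l1 i) k1) ?_, lM, fM,
      cls_mul lP lM⟩
    ⟨0, fun k => ⟨r, q.pos, ?_⟩⟩ (inv_pos.2 r0) ?_ (by omega)
    (nuu.te T hT _ _ _ _ _ (nf_pull hT hq nl) r0 ⟨_, s₀, lW, s1, Tp.dense_nz' lW s1 ⟨_, s2⟩, rfl⟩
      (nuu.tr T hT _ _ _ π S hπ _ hN))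
    ⟨⟨cX, pX⟩, P.conn, P.lb, P.pos, sγ, ⟨_, i1⟩, mz, ?_, ?_, ?_,
      T.pull hp (T.pull hq (T.c1 A.Z Λ)), nf_pull hT hp (nf_pull hT hq hg.1), ?_⟩
    fun k hk e U p hr he hU hr' _ => ?_
  · have k3 := kc_add hT (hT.c1.pos _ _ (lb_mul (lb_pow lM i) k1) (fM H k1 k2 i))
      (nn_smul hT (Nat.cast_nonneg i) nP)
    rw [hT.c1.mul _ _ _ (lb_pow lM i) k1, hT.c1.pow _ _ _ lM] at k3
    rwa [hT.c1.mul _ _ _ (lb_pow l1 i) k1, hT.c1.pow _ _ _ l1, hT.c1.mul _ _ _ lP lM, smul_add,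
      add_assoc, add_comm (_ • _)]
  · have := Tp.ef_smul (⟨_, s₀, lW, cls_pow lP r, s1, _, s2⟩ : P285S.Ef B.Z _) k
    rwa [add_zero, smul_comm]
  · rw [hT.rg.pull_id, eW, ← smul_add, inv_smul_smul₀ r0.ne', hT.c1.mul _ _ _ lP lM,
      hT.c1.pull hq _ h.lb, add_comm (T.c1 B.Z B.P)]
  · rw [← map_mul, c1, add_mul, map_add, z1, smul_mul_assoc, map_smul, ← map_mul, c3, ← mul_assoc,
      ← pow_succ', h.nu.2 _ (hg.1.mn.pow _), mul_zero, smul_zero, add_zero, mul_zero]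
  · have k1 := ef_int hT (P270K.ef_c1 hT (hp.lb lW) (hγ.lb P.lb) ef) mz
    rw [hT.c1.pull hp _ lW, hT.c1.pull hγ _ P.lb, sub_mul, map_sub, ← map_mul, c1, z1, mul_zero,
      zero_sub] at k1
    exact le_antisymm (neg_nonneg.1 k1) (mn_int hT
      ((nf_pull hT hγ (kc_nf hT (hT.c1.pos _ _ P.lb P.pos))).mn.mul mz))
  · obtain ⟨R₀, ρ, r1, r2, r3, r4⟩ := P285W.O.JacH.along hT hp (holM_id (X := X.X))
    obtain ⟨b₀, hb⟩ := r1.cover x₀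
    have k := nze T hT d X R₀ ρ (T.pull hp (T.pull hq (zz T A.Z L Λ ν))) ⟨cX, pX⟩ r1 r2
      (KodA.dense_nz r1 r2 hb ((r3 x₀).2 i1 b₀ hb)) fun e U p hq he hU hr => by
        rw [← hT.rg.pull_comp hq hp (hp.comp hq) fun _ => rfl]
        exact exz T hT _ X B.Z u S' _ hu e U _ (hp.comp hq) he hU (range_subset_iff.2 fun x =>
          ⟨p x, fun i => hr (mem_range_self x) ((r3 _).2 i), rfl⟩)
    rwa [r4, hT.rg.pull_id, hT.rg.pull_id] at k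
  · rw [← map_mul, c1, ← map_mul, c3, mul_left_comm (T.c1 A.Z Λ), ← pow_succ']
    exact mul_pos (c2 _ i1) (mul_pos (c4 _ (hπ.imm hx₁)) (P270F.Tk.pos_dm hT hg.1 hb (nl.mn.pow ν)
      (dg_pow hT (nf_dg hT nl) ν) (by omega) h.nu.1))
  · obtain rfl : d = e := by omega
    rw [← hT.rg.pull_comp hr hp (hp.comp hr) fun _ => rfl]
    exact ins_of nzu d T hT κ' ι' B m' N' U _ (hp.comp hr) _ q.ok hU hz dz
      (range_subset_iff.2 fun x =>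
        let ⟨_, y1, y2⟩ := hr' (mem_range_self x)
        ⟨k, (q.neg k hk).1, y2 ▸ y1⟩)

end Vale.Agent.P270Q
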