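import Vale.Agent.P270Q.Defs
import Vale.Agent.P285S.At.All
import Vale.Agent.P270F.Tg.Bir
import Vale.Agent.P285S.Bs2.Big

/-!
# P270Q: the dichotomy, with a free class on a model
-/

open Set Filter Function
open Vale.Agent.P272.K Vale.Agent.P285.H281.FD Vale.Agent.P281Z Vale.Agent.P280Z
open Vale.Agent.P277.HD (pull)
open Vale.Agent.P285W Vale.Agent.P285W.J Vale.Agent.P285W.Bs
open Vale.Agent.P285S Vale.Agent.P285S.At
open Vale.Agent.P285S.B2 (Ba Nu)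
open Vale.Agent.P285W.O (Fm)

noncomputable section

namespace Vale.Agent.P270Q

namespace K81

variable {T : CT} (hT : T.OK) {d ν : ℕ} {U Y Z M : Mf (d + 1)} {D : Bd U.X} {s : D.ι → U.X → ℂ}
  {μ : Z.X → Y.X} {S : Set Y.X} {l : T.H Y} {g : T.H Z}

include hT

theorem kill {p : U.X → Y.X} (hp : HolM (d + 1) (d + 1) p) (hU : Cp U) (hM : Cp M)
    {hμ : HolM (d + 1) (d + 1) μ} {q : M.X → U.X} {B : Set U.X} (hq : Modif (d + 1) q B)
    {e : M.X → Z.X} (he : HolM (d + 1) (d + 1) e) (c : ∀ z, μ (e z) = p (q z)) (hl : Nf T Y l)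
    (hz : Kl T hμ l ν g univ) (hD : IsLB (d + 1) D) (hs : IsSec (d + 1) D s)
    (hd : Dense {x | NZ D s x})
    (h : ∀ y, Mn T Y y → T.int U (T.c1 U D * T.pull hp (l ^ ν * y)) = 0) :
    T.int M (T.pull he g ^ d * T.c1 M (pull q D)) = 0 := by
  have := hU.conn
  have dM : Dense {x | NZ (pull q D) (fun a x => s a (q x)) x} :=
    (hq.pre_thin (Ps.thin_z hD hs hd)).2.mono fun _ k => not_not.1 k
  obtain ⟨δ, u, -⟩ := Ps.fub1 hT this hU.prj.kah hq.hol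
  rw [mul_comm, ← map_pow]
  refine N4.nze T hT d M _ _ _ hM (hq.hol.lb hD) (hq.hol.sec hs) dM fun d' E r hr e' hE k => ?_
  obtain rfl : d = d' := Nat.succ_injective e'
  rw [← hT.rg.pull_comp hr he (he.comp hr) fun _ => rfl]
  refine hz.kill E _ _ hE (fun _ => trivial) fun y hy => ?_
  have pq := hp.comp hq.hol
  rw [← hT.rg.pull_comp (he.comp hr) hμ (pq.comp hr) fun x => (c _).symm,
    hT.rg.pull_comp hr pq (pq.comp hr) fun _ => rfl]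
  refine N4.znz T hT _ M _ _ _ hM (hq.hol.lb hD) (hq.hol.sec hs) dM
    (mn_pull hT pq ((hl.mn.pow ν).mul hy)) ?_ d E r hr rfl hE k
  rw [hT.c1.pull hq.hol D hD, hT.rg.pull_comp hq.hol hp pq fun _ => rfl, ← map_mul, u, h y hy,
    mul_zero]

theorem pos (cY : Cp Y) (hμ : Modif (d + 1) μ S) (hl : Nf T Y l) (hν : Nu T Y l ν) (n0 : 0 < ν)
    (hz : Kl T hμ.hol l ν g univ) : 0 < T.int Z (T.pull hμ.hol l * g ^ d) := by
  have := cY.conn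
  obtain ⟨a, ha, he⟩ := hz.big
  have nl := nf_pull hT hμ.hol hl
  have ng := bf_nf hT hz.bf
  obtain ⟨δ, u1, u2⟩ := Ps.fub1 hT this cY.prj.kah hμ.hol
  have := hμ.conn
  obtain ⟨x, hx⟩ := hμ.thin_pre.2.nonempty
  refine (mn_int hT (nl.mn.mul (ng.mn.pow d))).lt_of_ne' fun k => hν.1 fun y hy => ?_
  rw [mul_comm] at k
  have k' := domp hT (le_of_ef hT zero_le_one (by rwa [one_smul])) (kc_nf hT ha) ng d nl.mn k
  obtain ⟨t, rfl⟩ := Nat.exists_eq_add_of_le' n0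
  have z := B2.zr_of hT (e := 1) ha (fun y hy => by simpa using mn_int hT hy) nl.mn
    (by simpa using nf_dg hT nl) (add_comm 1 d) (by rwa [one_mul, mul_comm]) _
    ((nl.mn.pow t).mul (mn_pull hT hμ.hol hy))
  rw [one_mul, ← mul_assoc, ← pow_succ', ← map_pow, ← map_mul, u1] at z
  exact (mul_eq_zero.1 z).resolve_left (u2 x (hμ.imm hx)).ne'

open NumH (curve imm) in
theorem num {L A : Bd Y.X} {W : Wd Y} {π : U.X → W.W.X}
    {h : HolM (d + 1) (d + 1 + (d + 1) + 1) π} {b : ℕ} (F : Fm W.W U π b)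
    (hμ : Modif (d + 1) μ S) (hb : Ba Y L A) (hν : Nu T Y (T.c1 Y L) ν) (n0 : 0 < ν)
    (hW : Cw T L A ν W h) (ns : Kl T hμ.hol (T.c1 Y L) ν g univ) :
    ∃ (Γ : Mf 1) (i : Γ.X → U.X) (hi : HolM 1 (d + 1) i), Cp Γ ∧
    (∀ γ, Imm (d + 1 + (d + 1) + 1) (d + 1 + (d + 1) + 1) F.π (F.i (i γ)) ∧
      NZ W.D1 W.t1 (π (i γ)) ∧ NZ W.D2 W.t2 (π (i γ))) ∧
    (∃ γ, Imm (d + 1) (d + 1) (fun x => W.p1 (π x)) (i γ)) ∧
    T.int Γ (T.pull hi (T.pull (W.h1.comp h) (T.c1 Y L))) ≠ 0 := by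
  have hB : O.Bz Y L A := ⟨hb.conn, hb.lL, hb.lA, hb.pos, hb.bA⟩
  have nl := hB.nef hT
  have ok := hW.ok
  have hU := hW.cp
  have := hU.conn
  have p1 := W.h1.comp h
  have p2 := W.h2.comp h
  have n1 := nf_pull hT p1 nl
  have n2 := nf_pull hT p2 nl
  have nx := nf_pull hT h ok.nef
  obtain ⟨R, r, r1, r2, r3, r4⟩ := O.jac.fib T hT _ _ _ _ U π h F
  obtain ⟨v, hv⟩ := F.et
  obtain ⟨a, ha⟩ := r1.cover v
  have dR := KodA.dense_nz r1 r2 ha ((r3 v).2 hv a ha)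
  have g1 := hW.neg.mono (S := π ⁻¹' {w | ¬ NZ W.D1 W.t1 w}) fun _ k => .inl k
  have g2 := hW.neg.mono (S := π ⁻¹' {w | ¬ NZ W.D2 W.t2 w}) fun _ k => .inr k
  have e1 := ef_pull hT h ok.l1 ok.s1 g1
  have e2 := ef_pull hT h ok.l2 ok.s2 g2
  have c1 := (hT.c1.pull h _ ok.l1).trans (O.TopB.d1 hT ok h)
  have c2 := (hT.c1.pull h _ ok.l2).trans (O.TopB.d2 hT ok h)
  rw [O.TopB.d1 hT ok h] at e1
  rw [O.TopB.d2 hT ok h] at e2
  have z0 : ∀ y, Mn T Y y →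
      T.int U (T.pull h (T.c1 W.W W.ξ) * T.pull p2 (T.c1 Y L ^ ν * y)) = 0 := fun y hy => by
    have := Ob.mn_zero hT h ok.kc (dg_pow hT (nf_dg hT nx) (ν + 1))
      (fun y hy => mn_int hT ((nx.mn.pow _).mul hy)) (fun j => le_antisymm (not_lt.1 fun z =>
        hW.np ⟨j, z⟩) (mn_int hT ((nx.mn.pow _).mul ((nf_pull hT h (kc_nf hT ok.kc)).mn.pow _))))
      (mn_pull hT W.h2 hy)
    rw [← hT.rg.pull_comp h W.h2 p2 fun _ => rfl, pow_succ, mul_assoc] at this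
    rw [map_mul (T.pull p2), map_pow, mul_left_comm]
    exact domp hT (le_of_ef hT zero_le_one (by rwa [one_smul])) n2 nx ν
      (nx.mn.mul (mn_pull hT p2 hy)) this
  have z1 : ∀ {m}, Nf T U m → J.Ef T U (T.pull h (T.c1 W.W W.ξ) - m) → ∀ y, Mn T Y y →
      T.int U ((T.pull h (T.c1 W.W W.ξ) - m) * T.pull p2 (T.c1 Y L ^ ν * y)) = 0 := by
    intro m hm he y hy
    have k := mn_pull hT p2 ((nl.mn.pow ν).mul hy)
    refine le_antisymm ?_ (ef_int hT he k)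
    rw [sub_mul, map_sub, z0 y hy, zero_sub, neg_nonpos]
    exact mn_int hT (hm.mn.mul k)
  have eR : J.Ef T U (T.c1 U R) := ⟨R, r, r1, r2, dR, rfl⟩
  have tS : Thin (d + 1) ((fun x => W.p2 (π x)) ⁻¹' S) := hμ.thin.pre p2
    (((nim _ _ U Y _ this p2).1 (imm hT p2 (hT.c1.deg Y A) hW.a2)).2.mono
      fun x k => (imm_iff_sbm (n := d + 1) (x := x) (f := fun x => W.p2 (π x))).1 (not_not.1 k))
  obtain ⟨M, q, e, hM, hq, he, c⟩ := P270F.Tg.lft hμ ns.prj p2 hU tS.2.nonempty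
  have k0 := kill hT p2 hU hM hq he c nl ns r1 r2 dR fun y hy => by
    rw [map_mul (T.pull p2), map_pow, ← mul_assoc]
    exact Ob.mn_zero hT p2 (hB.kc0 hT) (dg_mul hT (ef_dg hT eR) (dg_pow hT (nf_dg hT n2) ν))
      (fun y hy => mul_assoc (T.c1 U R) _ y ▸ ef_int hT eR ((n2.mn.pow ν).mul hy))
      (fun _ => by rw [← Nat.sub_sub, r4]; exact hW.nul) hy
  have k1 := kill hT p2 hU hM hq he c nl ns (h.lb ok.l1) (h.sec ok.s1)
    (g1.dense.mono fun _ k => not_not.1 k) (c1 ▸ z1 n1 e1)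
  have k2 := kill hT p2 hU hM hq he c nl ns (h.lb ok.l2) (h.sec ok.s2)
    (g2.dense.mono fun _ k => not_not.1 k) (c2 ▸ z1 n2 e2)
  obtain ⟨ι, _, Γ, i, hi, h1, h2⟩ := cuts_of Ct.cut T hT d 1 (d + 1) M _ _ (add_comm _ _) hM.conn
    (mb_pow (bf_pull hT he ns.bf) d) (hq.pre_neg (((Ps.thin_z r1 r2 dR).neg.union hW.neg).union
      ((nim _ _ U Y _ this p1).1 (imm hT p1 (hT.c1.deg Y A) hW.a1)).neg))
  have hi' : ∀ j, HolM 1 (d + 1) fun γ => q (i j γ) := fun j => hq.hol.comp (hi j)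
  have h3 : ∀ a, T.int M (T.pull he g ^ d * T.pull hq.hol a) =
      ∑ j, T.int (Γ j) (T.pull (hi' j) a) := fun a => by
    rw [h2]
    exact Finset.sum_congr rfl fun j _ => by
      rw [hT.rg.pull_comp (hi j) hq.hol (hi' j) fun _ => rfl]
  rw [hT.c1.pull hq.hol _ r1, h3] at k0
  rw [hT.c1.pull hq.hol _ (h.lb ok.l1), h3] at k1
  rw [hT.c1.pull hq.hol _ (h.lb ok.l2), h3] at k2
  have m0 := curve hT hi' r1 r2 (fun j => (h1 j).2.1.mono fun _ k => .inl (.inl k)) k0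
  have m1 := curve hT hi' (h.lb ok.l1) (h.sec ok.s1)
    (fun j => (h1 j).2.1.mono fun _ k => .inl (.inr (.inl k))) k1
  have m2 := curve hT hi' (h.lb ok.l2) (h.sec ok.s2)
    (fun j => (h1 j).2.1.mono fun _ k => .inl (.inr (.inr k))) k2
  have := hb.conn
  have cZ : Cp Z := ⟨hμ.conn, ns.prj⟩
  have pq := p2.comp hq.hol
  have cc : ∀ a, T.pull he (T.pull hμ.hol a) = T.pull hq.hol (T.pull p2 a) := fun a => by
    rw [← hT.rg.pull_comp he hμ.hol pq fun x => (c x).symm,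
      hT.rg.pull_comp hq.hol p2 pq fun _ => rfl]
  obtain ⟨δ, u1, u2⟩ := Ps.fub1 hT cZ.conn cZ.prj.kah he
  obtain ⟨ε, w1, w2⟩ := Ps.fub1 hT hU.conn hU.prj.kah hq.hol
  have := hM.conn
  obtain ⟨x₀, hx₀⟩ := hq.thin_pre.2.nonempty
  obtain ⟨x, hx⟩ := imm hT he (dg_pull hT hμ.hol (hT.c1.deg Y A)) (by
    rw [cc, ← map_pow, w1]
    exact mul_pos (w2 x₀ (hq.imm hx₀)) hW.a2)
  have ps := mul_pos (u2 x hx) (pos hT hB.cp hμ nl hν n0 ns)
  rw [← u1, map_mul (T.pull he), mul_comm, map_pow, cc, h3] at ps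
  obtain ⟨j, -, hj⟩ := Finset.exists_ne_zero_of_sum_ne_zero ps.ne'
  have := (h1 j).1
  obtain ⟨γ, hγ⟩ := (h1 j).2.1.dense.nonempty
  refine ⟨Γ j, _, hi' j, ⟨this, (h1 j).2.2 hM.prj⟩,
    fun γ => ⟨(r3 _).1 ((m0 j).2 γ), (m1 j).2 γ, (m2 j).2 γ⟩,
    ⟨γ, not_not.1 fun k => hγ (.inr k)⟩, fun k => hj ?_⟩
  have s1 := (m1 j).1
  have s2 := (m2 j).1
  rw [c1, map_sub, map_sub, k] at s1
  rw [c2, map_sub, map_sub] at s2
  linarith

end K81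

/-- ROW KEZ -/
theorem kez81 : KEZ := by
  intro T hT hF d Y Z μ S hμ L A ν g hb hU hN hν n0 n1 ns
  refine (o0w_of wd2 T hT _ Y L A ν hb hU hN hν n0 n1).imp_right (Or.rec id ?_)
  rintro ⟨W, U, π, h, b, F, ⟨τ, hτ⟩, hW⟩
  obtain ⟨Γ, i, hi, cΓ, a1, ⟨γ, a2⟩, a3⟩ := K81.num hT F hμ hb hν n0 hW ns
  have hc : At (chartAt (Cm b) F.t) F.t := P277Z.at_chart _
  have q1 := W.h1.comp F.hπ
  obtain ⟨k1, k2⟩ := tap.ker _ _ b Y W.W U π F _ _ q1 hc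
  have hj := F.emb.hol.comp hi
  obtain ⟨α, hα⟩ := conn _ Y L F.X _ _ (fun a b y => τ a b (F.π y)) Γ _ (Fin b) _ hb.lL q1
    (W.h2.comp F.hπ) hj cΓ.conn (fun γ => tap.ta _ _ Y L W.W F.X _ _ F.π τ _ W.h1 W.h2 F.hπ
      (a1 γ).1 (hτ _ (by rw [F.fac]; exact (a1 γ).2.1) (by rw [F.fac]; exact (a1 γ).2.2)))
    (fun k γ => k1 k _) ⟨γ, k2 _ (by simpa only [F.fac] using a2)⟩
  obtain ⟨M, m1, m2, m3⟩ := prim T hT Γ _ α ((q1.comp hj).lb hb.lL) hα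
  refine (a3 ?_).elim
  rw [← hT.rg.pull_comp hi (W.h1.comp h) (q1.comp hj) fun x => by rw [F.fac],
    ← hT.c1.pull (q1.comp hj) L hb.lL, ← m3]
  exact flat T hT hF Γ M cΓ m1 m2

end Vale.Agent.P270Q
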