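import Vale.Agent.P270Q.Defs
import Vale.Agent.P270G.D30
import Vale.Agent.P285S.N4.Kxd
import Vale.Agent.P285S.Tp.Thr
import Vale.Agent.P285S.Tp.Upc
import Vale.Agent.P285W.Kx.Kxp
import Vale.Agent.P285W.Kx.Efp

/-!
# P270Q, row KXQ: the domination of the canonical bundle
-/

open scoped Topology
open Set Filter
open Vale.Agent.P272.K Vale.Agent.P285.H281.FD Vale.Agent.P281Z
open Vale.Agent.P277Z.Slc (isLB_can)
open Vale.Agent.P285N.St (Iso)
open Vale.Agent.P285W.Bs (KU la)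
open Vale.Agent.P285W.Kx.Kp
open Vale.Agent.P285S.B2 (Ba)
open Vale.Agent.P285S.Tp (ef_add ef_smul)

namespace Vale.Agent.P270Q.K59

theorem ci {n : ℕ} {V : Mf n} {L M : Bd V.X} (hL : IsLB n L) (hM : IsLB n M) (h : Iso n L M) :
    cls n L = cls n M :=
  let ⟨τ, i1, i2⟩ := h
  (cls_eq hL hM).2 ⟨τ, fun a b x ha hb e he => (i1 a b e x he ha hb).1.analyticAt,
    fun a b x ha hb => (i1 a b _ x (P277Z.at_chart x) ha hb).2, i2⟩

/-- ROW KXQ -/
theorem kxq59 : KXQ := by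
  intro n T _ V Q D t q₀ C M h hE
  have R := h.ok.bir.res
  have := h.ok.conn
  have K := h.sub
  have lK := isLB_can (n := n) (W := V.X)
  obtain ⟨r, H, r0, hb⟩ := P285S.N4.scl n V Q.L ⟨h.ok.conn, h.ok.prj⟩ R.lbL (P270G.D30H.nf h.ok)
  refine ⟨r, H, r0, hb, 1, fun q hq a c E _ => ?_⟩
  have pH : Pos n H := P285N.Xc.piso _ _ _ _ (lb_mul (lb_pow hb.lL 0) hb.lA) hb.lA (by
    rw [cls_mul (lb_pow hb.lL 0) hb.lA, cls_pow hb.lL, zero_smul, zero_add]) (hb.pos 0)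
  have l1 := lb_mul (lb_pow h.lb (r * q)) hb.lA
  obtain ⟨j, j0, e1⟩ := P285W.Kx.efp n V _ inferInstance l1 (h.nef H hb.lA pH (r * q))
  have e2 : P285S.Ef V (cls n D) := by
    obtain ⟨i, x, x1, x2⟩ := K.div.nz
    exact ⟨D, t, K.div.lb, rfl, K.div.sec, x,
      (nz_iff K.div.lb (fun a b => K.div.sec.change a b x) x1).2 x2⟩
  have e3 : P285S.Ef V (-cls n Q.E) := ⟨zp Q.E (-1), fun i x => (Q.s i x)⁻¹, lb_zp R.lbE _,
    by rw [cls_zp R.lbE, neg_smul, one_smul], isSec_of (fun i x hi =>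
      (sec_hol R.secE hi).inv (hE x i hi)) fun i i' x hi hi' => by
        rw [R.secE.change i i' x hi hi', mul_inv, ← zpow_neg_one (Q.E.g i i' x)]
        rfl, Classical.arbitrary _, fun i hi => inv_ne_zero (hE _ i hi)⟩
  have c1 := ci R.lbL (lb_mul K.lb h.lb) h.iso
  have c2 := ci (lb_mul K.lb (lb_pow R.lbE q₀)) (lb_mul (lb_pow lK q₀) K.div.lb) K.iso
  rw [cls_mul K.lb h.lb] at c1
  rw [cls_mul K.lb (lb_pow R.lbE q₀), cls_mul (lb_pow lK q₀) K.div.lb, cls_pow R.lbE,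
    cls_pow lK, ← eq_sub_iff_add_eq] at c2
  have l2 := lb_mul (lb_pow hb.lL a) (lb_pow hb.lA c)
  have l3 : IsLB n (P285W.Wr.bd n (Q.L.pow r) H a c E) := lb_mul l2 (lb_pow lK E)
  set l := j * q * r * q₀ with hl
  have q1 := K.one
  have l0 : 0 < l := by positivity
  have l4 := lb_mul (lb_pow hb.lL (l * a + E * j * q)) (lb_pow hb.lA (l * c + E * j))
  obtain ⟨Z, z1, z2⟩ := ef_mul (c := E) (lb_pow l3 l) l4
    (ef_add (ef_smul (ef_add e2 (ef_smul e3 q₀)) (j * q * r)) e1) (by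
      rw [cls_pow l3, P285W.Wr.bd, cls_mul l2 (lb_pow lK E), cls_mul (lb_pow hb.lL _) (lb_pow hb.lA _),
        cls_mul (lb_pow hb.lL _) (lb_pow hb.lA _), cls_mul (lb_pow h.lb _) hb.lA, cls_pow hb.lL,
        cls_pow hb.lL, cls_pow hb.lA, cls_pow hb.lA, cls_pow lK, cls_pow h.lb, cls_pow R.lbL, c1,
        c2, hl]
      module)
  have k1 : j * q ≤ l := by
    rw [hl, mul_assoc]
    exact Nat.le_mul_of_pos_right _ (by positivity)
  refine ⟨l, l * a + E * j * q, l * c + E * j, Z, ⟨l0, by nlinarith [Nat.mul_le_mul_left E k1, Nat.zero_le (l * c)],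
    by nlinarith [Nat.mul_le_mul_left E k1, Nat.zero_le (l * a)]⟩, z1, fun s hs => ?_⟩
  obtain ⟨N, n1, n2⟩ := z2 (fun i x => s i x ^ l) (isSec_of (fun _ _ ha => (sec_hol hs ha).pow l)
    fun i i' x hi hi' => by
      rw [hs.change i i' x hi hi', mul_pow]
      rfl)
  refine ⟨N, n1, fun x hx φ hφ => Rl.sz (fun i hi => ?_) hφ⟩
  obtain ⟨i₁, w, w1, w2, w3, w4⟩ := n2 x hx i hi
  exact ⟨i₁, w, w1, w2, w3, w4.mono fun y hy => by simpa only [pow_one] using hy⟩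

end Vale.Agent.P270Q.K59
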