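import Vale.Agent.P270Q.Defs
import Vale.Agent.P270G.Mm1

/-!
# P270Q, row MM1: the null components are contracted, up to dimension five
-/

open scoped Manifold ContDiff Topology
open Set Filter Function
open Vale.Agent.P272.K Vale.Agent.P285.H281.FD Vale.Agent.P281Z Vale.Agent.P280Z
open Vale.Agent.P277Z.Slc (IsDiv lin triv isLB_triv)
open Vale.Agent.P277.HD (pull)
open Vale.Agent.P285N Vale.Agent.P285W Vale.Agent.P285W.J Vale.Agent.P285W.Bs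
open Vale.Agent.P285N.Tp (Eff mon)
open Vale.Agent.P285N.Tp.En (div_mon mon_ne sec_mon)
open Vale.Agent.P285S.Mm (Sp)
open Vale.Agent.P270G (Cw Nl Nz Fb CREP NZU RGN AVG)
open Vale.Agent.P270G.Mm1H (dn semi_pow mon_nz ex_cp nf0)
open Vale.Agent.P270F.Mg (Ct Frm)
open Vale.Agent.P270G (ForP)

noncomputable section

namespace Vale.Agent.P270Q

namespace M8

theorem core {T : CT} (hT : T.OK) (hC : CREP) (hG : P270G.GEN) (hN : NZU) (hR : RGN) (hA : AVG)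
    (hS : P285S.SA fun d _ L => d ≤ 5 ∧ Eff d L) (h0 : P285S.B2.NEG0) {d : ℕ} (hd : d ≤ 4) {κ ι κ' ι' : Type} [Fintype κ] [Fintype κ']
    {A : Pr (d + 1) κ ι} {m : κ → ℤ} {N : ℕ} {z : T.H A.Z} (h : Cw A m N) (mz : Mn T A.Z z)
    (dz : T.Dg A.Z d z) (hn : ∀ k, m k < 0 → Nl T A k z) {O : κ → Bd A.Z.X}
    {σ : ∀ l, (O l).ι → A.Z.X → ℂ} (hO : ∀ l, IsDiv (d + 1) (A.G l) (O l) (σ l)) {φ : κ → ℕ}
    (p1 : ∀ k, φ k ≠ 0 ↔ Nl T A k z) (z0 : T.c1 A.Z A.P = 0) {B : Pr (d + 1) κ' ι'}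
    {m' : κ' → ℤ} {N' δ : ℕ} {π : B.Z.X → A.Z.X} {O' : κ' → Bd B.Z.X}
    {σ' : ∀ l, (O' l).ι → B.Z.X → ℂ} {Φ φ' : κ' → ℕ} {Q : Bd B.Z.X} (ok : B.Ok m' N')
    (md : Modif (d + 1) π (Sp A φ)) (div : ∀ l, IsDiv (d + 1) (B.G l) (O' l) (σ' l)) (pos : 0 < δ)
    (cl : cls (d + 1) B.P = δ • cls (d + 1) (pull π (A.P.mul (lin O fun l => φ l))) -
      ∑ l, Φ l • cls (d + 1) (O' l))
    (lbQ : IsLB (d + 1) Q) (clQ : cls (d + 1) Q = cls (d + 1) B.P)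
    (eff : cls (d + 1) Q = δ • cls (d + 1) (pull π A.P) + ∑ l, φ' l • cls (d + 1) (O' l))
    (neg : ∀ l, m' l < 0 → Φ l ≠ 0) (sup : ∀ l, Φ l ≠ 0 ∨ φ' l ≠ 0 → ∀ y ∈ B.G l, π y ∈ Sp A φ)
    (pre : ∀ y k, π y ∈ A.G k → ∃ l, y ∈ B.G l ∧ (φ k ≠ 0 → Φ l ≠ 0 ∨ m' l = N'))
    (gd : ∃ H, Xc.Good B m' H Q) (rig : ∃ Λ H : Bd B.Z.X, IsLB (d + 1) Λ ∧ Bpf (d + 1) Λ ∧
      IsLB (d + 1) H ∧ Pos (d + 1) H ∧ P285S.Ef B.Z (cls (d + 1) Λ - cls (d + 1) H) ∧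
      Xc.Rig B (fun l => -(Φ l : ℤ)) Λ Q)
    (hc : ∀ l, IsConnected (B.G l)) : (∃ C : Ct A.Z, C.Ok (Nz T A z)) ∨ Frm T A.Z z := by
  have cn := ok.conn
  have oA := h.ok
  have lO := fun l => (div l).lb
  have lD := lb_lin (fun l => (hO l).lb) fun l => (φ l : ℤ)
  have hπ := md.hol
  obtain ⟨H₀, gN, C₀, gF⟩ := gd
  have nfQ : Tp.Nf B.Z Q := P285S.Tp.nf_of gN.lbH lbQ fun i M h1 h2 =>
    gN.pos i 0 M h1 (by rw [h2, zero_smul, add_zero])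
  obtain ⟨t, t0, ht⟩ := h.tor
  have dm := div_mon div fun l => t * φ' l
  have sa := hS (d + 1) κ' ι' B m' N' ⟨ok, H₀, ⟨gN.lbH, ok.lb, fun i j M h1 h2 =>
    gN.pos i j M h1 (by rw [h2, clQ])⟩, C₀, fun k i n M s h1 h2 => gF k i n M s h1 (by
      rw [h2, clQ])⟩ ⟨by omega, t, t0, P285S.Tp.sec_cls (lb_pow ok.lb t) dm.lb (by
        rw [cls_pow ok.lb, cls_lin lO, ← clQ, eff, smul_add, cls_pull hπ oA.lb, smul_comm,
          ← map_nsmul, ht, map_zero, smul_zero, zero_add, Finset.smul_sum]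
        simp only [natCast_zsmul, mul_smul]) dm.sec dm.nz⟩
  have ho : ∀ y ∈ off B.G, π y ∈ off A.G := fun y hy k hk =>
    (pre y k hk).elim fun l e => hy l e.1
  obtain ⟨m₀, Ω₀, cw, ng⟩ := hC (d + 1) T hT κ ι A m N B.Z π _ κ' B.G h md ok.prj ok.snc hc
    fun y hy => ⟨fun ⟨k, _, e⟩ => ho y hy k e, ho y hy⟩
  have s0 : ∀ j, m₀ j < 0 → ∃ y, (∀ i, y ∈ B.G i → i = j) ∧ π y ∈ Sp A φ := fun j hj => by
    obtain ⟨y, y1, y2⟩ := hG (d + 1) B.Z κ' B.G j ok.snc (hc j).nonempty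
    refine ⟨y, fun i e => by_contra fun c => y2 i c e, ?_⟩
    rcases ng j hj y y1 with e | ⟨k, k1, k2⟩
    exacts [by_contra fun c => e (md.imm c), ⟨k, (p1 k).2 (hn k k1), k2⟩]
  obtain ⟨c, N₁, m₁, c0, kl, n1, Ω₁, ok₁⟩ := hA (d + 1) T hT κ' ι _ m₀ N ι' B.U B.g B.Ω m' N' Φ cw ok neg
    fun j hj => by
      obtain ⟨y, y2, k, k1, k2⟩ := s0 j hj
      obtain ⟨l, l1, l2⟩ := pre y k k2
      exact y2 l l1 ▸ l2 k1
  obtain ⟨Λ, H, lΛ, bΛ, lH, pH, eΛ, rg⟩ := rig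
  have fb : Fb B.Z Λ := ⟨lΛ, bΛ, H, lH, pH, eΛ⟩
  have eS : Sp A φ = Nz T A z := Set.ext fun x => exists_congr fun k => and_congr_left' (p1 k)
  have dO := (Hyp.of_div div).dense
  have nz : ∀ (D : Bd B.Z.X) s, IsLB (d + 1) D → IsSec (d + 1) D s →
      (∀ y, ¬ NZ D s y → π y ∈ Sp A φ) → T.int B.Z (T.c1 B.Z D * T.pull hπ z) = 0 :=
    fun D s d1 d2 d4 => hN d T hT κ ι A m N B.Z π _ md _ D s oA ok.prj mz dz d1 d2
      (dO.mono fun y hy => by_contra fun e => (d4 y e).elim fun k e => ho y hy k e.2)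
      fun y e => .inr (eS ▸ d4 y e)
  obtain ⟨cp, hp⟩ := ex_cp hT B.Z
  have l1 : ∀ k : κ' → ℕ, cp (∑ l, k l • cls (d + 1) (O' l)) = T.c1 B.Z (lin O' fun l => k l) :=
    fun k => by
      rw [← hp _ (lb_lin lO _), cls_lin lO]
      simp only [natCast_zsmul]
  have e1 : T.c1 B.Z Q = T.c1 B.Z (lin O' fun l => φ' l) := by
    rw [← hp _ lbQ, eff, map_add, map_nsmul, hp _ (hπ.lb oA.lb), hT.c1.pull hπ _ oA.lb, z0,
      map_zero, smul_zero, zero_add, l1]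
  have e2 : T.c1 B.Z B.P = T.c1 B.Z Q := by rw [← hp _ lbQ, clQ, hp _ ok.lb]
  have e3 : T.c1 B.Z (B.P.pow c) = (c : ℝ) • T.c1 B.Z Q := by rw [hT.c1.pow _ _ _ ok.lb, e2]
  have rn : ∀ j a b, Φ j ≠ 0 → a + b = d → Nl T B j (T.c1 B.Z Λ ^ a * T.c1 B.Z Q ^ b) :=
    fun j a b hj e => hR d T hT κ' ι' B m' N' _ Λ Q j a b ok fb lbQ nfQ rg (by omega) e
  refine (em (T.c1 B.Z Q = 0)).imp (fun e5 => ?_) fun e5 => ?_
  swap
  · obtain ⟨r, r0, hr⟩ := semi_pow sa c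
    refine ⟨κ', ι', inferInstance, ⟨B.Z, B.G, B.U, fun a b x => B.g a b x ^ c, Ω₁⟩, m₁, N₁, r, Λ, π,
      _, md, ok₁, kl, hc, r0, hr, fun e => e5 ((smul_eq_zero.1 (e3.symm.trans e)).resolve_left
        (Nat.cast_ne_zero.2 c0.ne')), fb, ?_, fun k hk => ⟨fun D s hD => nz D s hD.lb hD.sec
        fun y e => sup k (.inl (n1 k hk)) y (by_contra fun b => e fun a ha e =>
          b ((hD.leq a y ha).mem.1 e)), fun a b e D s hD => ?_⟩⟩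
    · change T.int B.Z (T.c1 B.Z (B.P.pow c) * _) = 0
      rw [e3, e1, smul_mul_assoc, map_smul, nz _ _ (lb_lin lO _) (sec_mon div φ') fun y e =>
        by_contra fun k => e ((mon_nz div φ').2 fun l a b => k (sup l (.inr a) y b)), smul_zero]
    · change T.int B.Z (T.c1 B.Z D * (T.c1 B.Z Λ ^ a * T.c1 B.Z (B.P.pow c) ^ b)) = 0
      rw [e3, smul_pow, mul_smul_comm, mul_smul_comm, map_smul, rn k a b (n1 k hk) e D s hD,
        smul_zero]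
  have e6 : T.c1 B.Z ((pull π (lin O fun l => φ l)).pow δ) = T.c1 B.Z (lin O' fun l => Φ l) := by
    have := congrArg cp cl
    rw [hp _ ok.lb, e2, e5, map_sub, map_nsmul, l1, hp _ (hπ.lb (lb_mul oA.lb lD)),
      hT.c1.pull hπ _ (lb_mul oA.lb lD), hT.c1.mul _ _ _ oA.lb lD, z0, zero_add,
      ← hT.c1.pull hπ _ lD, eq_comm, sub_eq_zero] at this
    rw [hT.c1.pow _ _ _ (hπ.lb lD), Nat.cast_smul_eq_nsmul, this]
  have e7 : T.int B.Z (T.c1 B.Z (lin O' fun l => Φ l) * T.c1 B.Z Λ ^ d) = 0 := by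
    rw [hT.c1.lin _ _ _ lO, Finset.sum_mul, map_sum]
    refine Finset.sum_eq_zero fun l _ => ?_
    by_cases hl : Φ l = 0
    · simp [hl]
    · have := rn l d 0 hl rfl _ _ (div l)
      rw [pow_zero, mul_one] at this
      rw [smul_mul_assoc, map_smul, this, smul_zero]
  obtain ⟨D, s, d1, d2, d3, d4⟩ := eΛ
  have key := h0 T hT d B.Z _ _ _ _ _ _ ⟨cn, ok.prj⟩ (lb_pow (hπ.lb lD) δ) (lb_lin lO _)
    (Tp.N2.pow_sec (hπ.sec (sec_mon hO φ)) δ) (sec_mon div Φ)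
    (dO.mono fun y hy a ha => pow_ne_zero _ ((mon_nz hO φ).2 (fun l _ => ho y hy l) a ha))
    (dO.mono fun y (hy : y ∈ off B.G) => (mon_nz div Φ).2 fun l _ => hy l) e6 ⟨Λ, lΛ, bΛ, rfl⟩
    (hT.c1.pos _ H lH pH) ⟨D, s, d1, d3, dn d1 d3 d4, by
      rw [← hp _ d1, d2, map_sub, hp _ lΛ, hp _ lH]⟩ (e6 ▸ e7)
  have sp : ∀ y, π y ∈ Sp A φ ↔ y ∈ Sp B Φ := fun y => ⟨fun ⟨k, k1, k2⟩ => by_contra fun b =>
    (mon_nz hO φ).1 (fun a ha e => key y ((mon_nz div Φ).2 fun l hl e => b ⟨l, hl, e⟩) a ha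
      ((pow_eq_zero_iff pos.ne').2 e)) k k1 k2, fun ⟨l, l1, l2⟩ => sup l (.inl l1) y l2⟩
  rw [← eS]
  refine ⟨Ct.mk κ' ι (Tp.LR.mk B.Z π B.G m₀ N 1 Ω₀ : Tp.LR A.Z A.P κ').A m₀ N π Φ Λ Q, cw, md,
    fun j hj => ?_, sp, fb, lbQ, nfQ, rg⟩
  obtain ⟨y, y1, y2⟩ := s0 j hj
  obtain ⟨l, l1, l2⟩ := (sp y).1 y2
  exact y1 l l2 ▸ l1

end M8

/-- row MM1 -/
theorem mm1_pre (hC : CREP) (hG : P270G.GEN) (hN : NZU) (hR : RGN) (hA : AVG)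
    (hS : P285S.SA fun d _ L => d ≤ 5 ∧ Eff d L) (h0 : P285S.B2.NEG0) (hF : RFM) {d : ℕ}
    (hd : d ≤ 4) (hM : P285M.As.MMT (d + 1)) : MM1 d := by
  intro T hT κ ι _ A m N z h mz dz hn
  classical
  have ok := h.ok
  obtain ⟨O, σ, hO⟩ := (Hyp.of_snc ok.snc).exists_div
  have lO := fun l => (hO l).lb
  obtain ⟨φ, p1, p2⟩ : ∃ φ : κ → ℕ, (∀ k, φ k ≠ 0 ↔ Nl T A k z) ∧
      ∀ k, φ k ≠ 0 → m k + φ k = N := by
    refine ⟨fun k => if Nl T A k z then (N - m k).toNat else 0, fun k => ?_,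
      fun k => ?_⟩
    all_goals
      have := h.klt k
      dsimp only
      split_ifs with c
    exacts [iff_of_true (by omega) c, iff_of_false (fun e => e rfl) c, fun _ => by omega,
      fun e => absurd rfl e]
  have lD := lb_lin lO fun l => (φ l : ℤ)
  have lP := lb_mul ok.lb lD
  obtain ⟨Ω, ok'⟩ := P285S.Mm.mkpr (d + 1) κ A.Z A.G O σ _ (fun l => m l + φ l) N ok.conn ok.prj ok.snc hO
    lP ok.pos ok.even (fun l => by have := p2 l; have := ok.le l; omega) (by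
      rw [cls_mul ok.lb lD, cls_lin lO, Xc.cls_eq (d + 1) κ ι m N A O σ ok hO, add_assoc,
        ← Finset.sum_add_distrib]
      simp only [add_smul])
  obtain ⟨t, t0, ht⟩ := h.tor
  obtain ⟨c, hc⟩ := ex_cp hT A.Z
  have z0 : T.c1 A.Z A.P = 0 := by
    have := congrArg c ht
    rw [map_nsmul, map_zero, hc _ ok.lb, ← Nat.cast_smul_eq_nsmul ℝ] at this
    exact (smul_eq_zero.1 this).resolve_left (Nat.cast_ne_zero.2 t0.ne')
  have cP : 1 • cls (d + 1) (A.P.mul (lin O fun l => φ l)) = cls (d + 1) A.P + ∑ l, φ l • cls (d + 1) (O l) := by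
    rw [one_smul, cls_mul ok.lb lD, cls_lin lO]
    simp only [natCast_zsmul]
  have inp : P285S.Mm.In (⟨A.Z, A.G, _, _, Ω⟩ : Pr (d + 1) κ _) (fun l => m l + φ l) N O σ φ 1
      A.P := ⟨ok', fun l => by
    have := p2 l
    have := mt (fun e => (p1 l).2 (hn l e))
    omega, hO, ok.lb, nf0 hT ok.lb z0, one_pos, cP⟩
  obtain ⟨R₀, r₀, g₀⟩ := hM T hT κ _ ⟨A.Z, A.G, _, _, Ω⟩ _ N O σ φ 1 A.P inp h.conn p2 O σ 1
    (fun l => φ l) hO one_pos (by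
      change ((1 : ℕ) : ℝ) • T.c1 A.Z (A.P.mul (lin O fun l => φ l)) = _
      rw [hT.c1.mul _ _ _ ok.lb lD, z0, zero_add, hT.c1.lin _ _ _ lO, Nat.cast_one, one_smul])
    fun l hl => p2 l (by omega)
  obtain ⟨R, r, g, k⟩ := hF (d + 1) κ _ ⟨A.Z, A.G, _, _, Ω⟩ _ N O σ φ 1 A.P inp R₀ r₀ g₀
  exact M8.core hT hC hG hN hR hA hS h0 hd h mz dz hn hO p1 z0 r.ok r.md r.div r.pos r.cl r.ok.lb rfl
    ((one_smul _ _).symm.trans r.eff) r.neg r.sup (fun y j e =>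
      (r.pre y j e).imp fun l a => ⟨a.1, fun b => a.2.imp_right fun a => a.2 (p2 j b)⟩) g.gd.gd
    g.rig k

end Vale.Agent.P270Q
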