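import Vale.Agent.P270Q.Defs
import Vale.Agent.P270W.Rfm89

/-!
# P270Q, row RFM
-/

namespace Vale.Agent.P270Q

/-- **row RFM** -/
theorem rfm89 : RFM := P270W.R89.rfm

end Vale.Agent.P270Q
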