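import Vale.Agent.P270Q.Sgg32
import Vale.Agent.P285M.Sg.Trg
import Vale.Agent.P270U.Fibd
import Vale.Agent.P270U.Smd
import Vale.Agent.P270H.All20

/-!
# P270Q: the row SGG without hypotheses
-/

namespace Vale.Agent.P270Q

theorem sgg : SGG :=
  S32.sgg32 P281Z.Pk.start (P270U.fibd_of P270F.Mg.zc P270U.smd P270H.gag P270H.nvs4)
    P285M.Sg.trg

end Vale.Agent.P270Q
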