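import Vale.Agent.P270Q.Defs
import Vale.Agent.P270V.Gf071
import Vale.Agent.P285M.As.Sg55

/-!
# P270Q, row SGQ: no families of small slope
-/

open Set Filter
open Vale.Agent.P272.K Vale.Agent.P285.H281.FD Vale.Agent.P281Z Vale.Agent.P280Z
open Vale.Agent.P277.HD (pull)
open Vale.Agent.P285N Vale.Agent.P285N.Tp
open Vale.Agent.P285S (Pse)
open Vale.Agent.P285S.Tp (nf_comp)
open Vale.Agent.P270G

noncomputable section

namespace Vale.Agent.P270Q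

namespace SgqH

theorem pse {n : ℕ} {V Y : Mf n} {π : Y.X → V.X} {S : Set V.X} (hπ : Modif n π S)
    [Nonempty Y.X] {C : Bd V.X} (lC : IsLB n C) (h : Eff n C) (k : ℕ) :
    Pse Y (k • cls n (pull π C)) := by
  obtain ⟨a, ha, s, s1, s2⟩ := h
  refine ⟨0, fun i => ⟨a, ha, (congrArg (P285S.Ef Y) ?_).mp (P285S.Tp.ef_smul
    (P285S.Tp.ef_pull hπ (EfqH.ef_of (lb_pow lC a) s1 s2)) (i * k))⟩⟩
  rw [cls_pow lC, map_nsmul, cls_pull hπ.hol lC, add_zero, smul_comm, mul_smul]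

end SgqH

theorem sgq_of (h1 : SGG) (h2 : P285M.Sg.XG) : SGQ := by
  rintro n hn T hT V Q D t q C M g hF hE r ν H hr hb hTr ⟨d, c, -, c1, c2, -, c3⟩
  have bz : P285W.O.Bz V (Q.L.pow r) H := ⟨hb.conn, hb.lL, hb.lA, hb.pos, hb.bA⟩
  obtain ⟨b, X, B, π, hπ, γ, hγ, H', z, e, hX⟩ := h2 T hT n d c V _ _
    ⟨bz.cp, bz.nef hT, bz.kc0 hT, H, hb.lA, hb.bA, rfl⟩ c1 c2 c3
  have hQ := g.ok
  have K := g.sub
  have lM := g.lb
  obtain ⟨τ, i1, i2⟩ := g.iso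
  have rr := hQ.bir.res
  have := hQ.conn
  obtain ⟨p, R, -, hR, lt, -⟩ := lrk2 n V Q D t q C Q.E 1 (fun _ => Q.s) hQ K rr.lbE
    (fun _ => rr.secE) ⟨0, rr.nzE⟩
  obtain ⟨S, hM⟩ := hR.md
  have hu := hM.hol
  have ok := hR.ok
  have := ok.conn
  have lL := hu.lb rr.lbL
  have cP : cls n R.A.P = R.k • cls n (pull R.π C) := cls_pow (hu.lb K.lb) _
  have cL : cls n Q.L = cls n C + cls n M := by
    rw [← cls_mul K.lb lM, cls_eq rr.lbL (lb_mul K.lb lM)]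
    exact ⟨τ, fun a b x ha hb e he => (i1 a b e x he ha hb).1.analyticAt,
      fun a b x ha hb => (i1 a b _ x (P277Z.at_chart x) ha hb).2, i2⟩
  have r0 : (0 : ℝ) < r := Nat.cast_pos.2 hr
  have k0 : (0 : ℝ) < R.k := Nat.cast_pos.2 hR.kp
  have cl : T.c1 V (Q.L.pow r) = (r : ℝ) • T.c1 V Q.L := hT.c1.pow _ _ _ rr.lbL
  refine h1 T hT hF n b V X B _ _ _ R.A R.m R.N ((pull R.π Q.L).pow R.k) ((pull R.π M).pow R.k)
    R.π S hM (R.k / r) π hπ γ hγ H' z bz.cp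
    ⟨ok, lt, lb_pow lL _, P285S.Tp.F4.nf_pw lL (nf_comp hu hQ.prj rr.lbL (D30H.nf hQ)) _,
      lb_pow (hu.lb lM) _, P285S.Tp.F4.nf_pw (hu.lb lM) (nf_comp hu hQ.prj lM g.nef) _, ?_⟩
    (cP ▸ SgqH.pse hM K.lb g.eff R.k) (div_pos k0 r0) ?_ (by omega) ?_ hX
    fun k hk d U p hp e hU hr ⟨x, hx⟩ => (P285M.As.cd2 hM
      (fun y hy => (hR.exc k hk y hy).resolve_right (not_not.2 (hE _))) d U _ e hU (hπ.comp hp)
      (range_subset_iff.2 fun x => hr (mem_range_self x)) x hx).elim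
  · rw [cP, cls_pow lL, cls_pow (hu.lb lM), cls_pull hu rr.lbL, cls_pull hu K.lb, cls_pull hu lM,
      cL, map_add, smul_add]
  · rw [hT.c1.pow _ _ _ lL, hT.c1.pull hu _ rr.lbL, cl, map_smul, smul_smul,
      div_mul_cancel₀ _ r0.ne']
  · rwa [cl, P285W.J.ScaleX.tr_smul T _ r0.ne']

end Vale.Agent.P270Q
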