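import Vale.Agent.P270Q.Defs
import Vale.Agent.P270G.Snf
import Vale.Agent.P270G.Dn0
import Vale.Agent.P285S.N4.Nze
import Vale.Agent.P285S.Bs2.Neg0

/-!
# P270Q, row SNQ: no relation between null divisors
-/

open Set Filter Function
open Vale.Agent.P272.K Vale.Agent.P285.H281.FD Vale.Agent.P281Z Vale.Agent.P280Z
open Vale.Agent.P277.HD (pull)
open Vale.Agent.P285N Vale.Agent.P285W.J Vale.Agent.P285W.Bs
open Vale.Agent.P285S.B2 (Zr Nu SN)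
open Vale.Agent.P270G

namespace Vale.Agent.P270Q

open EndH SnfH in
/-- **SNQ** -/
theorem snq97 {d : ℕ} (h : CTQ d) : SNQ d := by
  intro T hT V Q D t q C M hG hF ν n0 nd hν hN
    ⟨M₁, M₂, s₁, s₂, c, l1, l2, t1, t2, d1, d2, e, z1, z2, k⟩
  have cV : Cp V := ⟨hG.ok.conn, hG.ok.prj⟩
  have q1 := Ps.thin_z l1 t1 d1
  have q2 := Ps.thin_z l2 t2 d2
  have nz : ∀ x, NZ (M₁.mul M₂) (fun i y => s₁ i.1 y * s₂ i.2 y) x → NZ M₁ s₁ x ∧ NZ M₂ s₂ x :=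
    fun x hx => by
    obtain ⟨a, ha⟩ := l1.cover x
    obtain ⟨b, hb⟩ := l2.cover x
    exact ⟨fun i hi => left_ne_zero_of_mul (hx (i, b) ⟨hi, hb⟩),
      fun i hi => right_ne_zero_of_mul (hx (a, i) ⟨ha, hi⟩)⟩
  obtain ⟨x₀, hx₀⟩ := have := cV.conn; (q1.union q2).dense.nonempty
  obtain ⟨Z, μ, S, hμ, g, K⟩ := h T hT V Q D t q C M hG hF ν
    (M₁.mul M₂) (fun i y => s₁ i.1 y * s₂ i.2 y) nd hν hN (lb_mul l1 l2)
    ⟨fun i e y he hi => (t1.holo _ e y he hi.1).mul (t2.holo _ e y he hi.2), fun i j y hi hj => by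
      rw [t1.change _ _ y hi.1 hj.1, t2.change _ _ y hi.2 hj.2]
      exact mul_mul_mul_comm _ _ _ _⟩
    ⟨x₀, fun i hi => mul_ne_zero (not_not.1 (fun c => hx₀ (.inl c) : ¬ ¬ NZ M₁ s₁ x₀) _ hi.1)
      (not_not.1 (fun c => hx₀ (.inr c) : ¬ ¬ NZ M₂ s₂ x₀) _ hi.2)⟩
  have := cV.conn
  have cZ : Cp Z := ⟨hμ.conn, K.prj⟩
  have := cZ.conn
  have nl := nf_of hT cV.prj hG.ok.bir.res.lbL (Dn0H.nf hG.ok)
  obtain ⟨a, kc, bg⟩ := K.big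
  have dn : ∀ {M : Bd V.X} {s : M.ι → V.X → ℂ}, Thin (d + 1) {x | ¬ NZ M s x} →
      Dense {x | NZ (pull μ M) (fun i y => s i (μ y)) x} := fun q =>
    (hμ.pre_thin q).2.mono fun _ => not_not.1
  have key : ∀ {M : Bd V.X} {s : M.ι → V.X → ℂ}, IsLB (d + 1) M → IsSec (d + 1) M s →
      Thin (d + 1) {x | ¬ NZ M s x} → Zr T V (T.c1 V M * T.c1 V Q.L ^ ν) →
      (∀ y, NZ (M₁.mul M₂) (fun i y => s₁ i.1 y * s₂ i.2 y) y → NZ M s y) →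
      T.int Z (T.c1 Z (pull μ M) * g ^ d) = 0 := fun {M s} a1 a2 a3 a4 a5 => by
    obtain ⟨r, r1, -⟩ := Ps.fub1 hT cV.conn (kah hT cV.prj) hμ.hol
    refine P285S.N4.nze T hT d Z _ _ _ cZ (hμ.hol.lb a1) (hμ.hol.sec a2) (dn a3)
      fun d' U p hp e' cU hr => ?_
    obtain rfl : d = d' := Nat.succ_injective e'
    refine K.kill U p hp cU (fun x => .inr fun c => hr ⟨x, rfl⟩ (a5 _ c)) fun y hy => ?_
    refine P285S.N4.znz T hT _ Z _ _ _ cZ (hμ.hol.lb a1) (hμ.hol.sec a2) (dn a3)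
      (mn_pull hT hμ.hol ((nl.mn.pow ν).mul hy)) ?_ d U p hp rfl cU hr
    rw [hT.c1.pull hμ.hol M a1, ← map_mul, r1, ← mul_assoc, a4 y hy, mul_zero]
  obtain ⟨ν, rfl⟩ : ∃ k, ν = k + 1 := ⟨ν - 1, by omega⟩
  refine fin1 hT (ν := ν) (α := c) P285S.B2.neg0 cZ (nf_pull hT hμ.hol nl)
    (fun q => hν.1 (zr_down hT hμ cV (by rwa [map_pow]))) K.bf kc bg
    (hμ.hol.lb l1) (hμ.hol.lb l2) (hμ.hol.sec t1) (hμ.hol.sec t2) (dn q1) (dn q2) ?_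
    (key l1 t1 q1 z1 fun y hy => (nz _ hy).1) (key l2 t2 q2 z2 fun y hy => (nz _ hy).2)
    (k.imp (fun q => (Nat.cast_pos.2 q).ne') fun ⟨x, hx⟩ => ?_)
  · rw [hT.c1.pull hμ.hol _ l1, hT.c1.pull hμ.hol _ l2, ← map_sub, e, map_smul]
  · obtain ⟨y, rfl⟩ := hμ.surj x
    exact ⟨y, hx⟩

end Vale.Agent.P270Q
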