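import Vale.Agent.P270Q.Fin
import Vale.Agent.P270Q.Mm1
import Vale.Agent.P270Q.Rfm89
import Vale.Agent.P270Q.Dnq
import Vale.Agent.P270Q.Frm
import Vale.Agent.P270Q.Ctq
import Vale.Agent.P270Q.Snq97
import Vale.Agent.P270Q.Kez81
import Vale.Agent.P270Q.Sgq
import Vale.Agent.P270Q.Sgg32A
import Vale.Agent.P270Q.Kxq59
import Vale.Agent.P285M.Sg.Xg

/-!
# P270Q: assembly
-/

open Vale.Agent.P270G

namespace Vale.Agent.P270Q

theorem ctq4 (mm : P285M.As.MMT 5) : CTQ 4 :=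
  ctq_of nuu rgn (ins_of nzu) dnq (frm_of sgg) le_rfl
    (mm1_pre crep gen nzu rgn avg P285S.Tp.As.sae5 P285S.B2.neg0 rfm89 le_rfl mm)

theorem noq4_of (mm : P285M.As.MMT 5) : NOQ 4 :=
  noq_of K59.kxq59 kez81 (sgq_of sgg P285M.Sg.xg) le_rfl (ctq4 mm) (snq97 (ctq4 mm))

end Vale.Agent.P270Q
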