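import Vale.Agent.P270Q.Defs2
import Vale.Agent.P285S.N4.Kxd
import Vale.Agent.P285W.Kx.Kxp
import Vale.Agent.P285W.Kx.Efp
import Vale.Agent.P285N.Tp.Mon

/-!
# P270Q, row KXG: the domination of the canonical bundle, with bounded poles
-/

open scoped Topology
open Set Filter
open Vale.Agent.P272.K Vale.Agent.P285.H281.FD Vale.Agent.P281Z
open Vale.Agent.P277Z (hol_const)
open Vale.Agent.P277Z.Slc (isLB_can lin)
open Vale.Agent.P285N Vale.Agent.P285N.Tp
open Vale.Agent.P285W.Bs (KU la Bn)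
open Vale.Agent.P285W.Kx.Kp
open Vale.Agent.P285S.N4 Vale.Agent.P285S.N4.KxdH

namespace Vale.Agent.P270Q.K59

theorem msf {n : ℕ} {W : Mf n} [ConnectedSpace W.X] {κ : Type} [Fintype κ] {G : κ → Set W.X}
    {γ : Pic n W.X} (h : P285W.Kx.Ef W γ) : Ms G γ fun _ => 0 :=
  let ⟨_, _, h1, h2, h3, h4⟩ := h
  h2 ▸ P285S.Nv.ms_sec h1 h3 h4

theorem ar {q l a c E j k₁ k₂ k₃ C : ℕ} (hq : 0 < q) (hj : 0 < j) (h : j * q ≤ l)
    (h0 : 0 < a + c + E) : Bn (1 + k₁ * k₂ + C * k₃ * k₁ + C * k₃) q l a c E (l * a + E * j * q)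
      (k₁ * (l * c + E * j) * k₂ + C * (k₁ * (l * c + E * j) + 1) * k₃) := by
  have h1 : E * j * q ≤ l * E := by rw [mul_assoc, mul_comm l]; exact Nat.mul_le_mul_left E h
  have h2 : q * (l * c + E * j) ≤ l * (q * c + a + E) := by nlinarith [Nat.zero_le (l * a)]
  have h3 : q ≤ l * (q * c + a + E) := ((Nat.le_mul_of_pos_left q hj).trans h).trans
    (Nat.le_mul_of_pos_right l (by
      have := Nat.le_mul_of_pos_left c hq
      omega))
  refine ⟨lt_of_lt_of_le (by positivity) h, ?_, ?_⟩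
  · calc _ ≤ l * a + l * E := by gcongr
      _ ≤ _ + (l * c + l * (k₁ * k₂ + C * k₃ * k₁ + C * k₃) * (a + c + E)) := Nat.le_add_right _ _
      _ = _ := by ring
  · calc _ = (k₁ * k₂ + C * k₃ * k₁) * (q * (l * c + E * j)) + C * k₃ * q := by ring
      _ ≤ (k₁ * k₂ + C * k₃ * k₁) * (l * (q * c + a + E)) + C * k₃ * (l * (q * c + a + E)) := by
        gcongr
      _ ≤ _ + l * (q * c + a + E) := Nat.le_add_right _ _
      _ = _ := by ring

/-- ROW KXG -/
theorem kxg59 : KXG := by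
  intro n T _ κ ι _ A m N L M h _
  classical
  have ok := h.ok
  have := ok.conn
  have lK := isLB_can (n := n) (W := A.Z.X)
  obtain ⟨r, H, r0, hb⟩ := scl n A.Z L ⟨ok.conn, ok.prj⟩ h.lb h.nef
  obtain ⟨H₀, C, l0, p0, hF⟩ := h.bp
  have pH : Pos n H := Xc.piso _ _ _ _ (lb_mul (lb_pow hb.lL 0) hb.lA) hb.lA (by
    rw [cls_mul (lb_pow hb.lL 0) hb.lA, cls_pow hb.lL, zero_smul, zero_add]) (hb.pos 0)
  have hy := Hyp.of_snc ok.snc
  obtain ⟨D, σ, hD⟩ := hy.exists_div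
  have hE : ∀ k : κ → ℕ, IsLB n (lin D fun l => k l) := fun k => lb_lin (fun l => (hD l).lb) _
  have hσ := sec_mon fun l => (hD l).sec
  have mE : ∀ (k : κ → ℕ) (z : ℤ), Ms A.G (z • cls n (lin D fun l => k l))
      fun l => (z * -(k l : ℤ) : ℤ) := fun k z => ms_unit (k := fun l => -(k l : ℤ)) hy (hE k)
    (fun a b x ha hb _ => (hσ _).change a b x ha hb) (fun a x ha =>
      ⟨_, fun l => (hD l).leq _ _ (ha l), fun _ => 1, hol_const _ _, one_ne_zero, by
        filter_upwards [off_iff fun l => (hD l).leq _ _ (ha l)] with y a1 a2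
        show (∏ l, σ l (a l) y ^ k l) * _ = 1
        rw [← Finset.prod_mul_distrib]
        exact Finset.prod_eq_one fun l _ => by
          rw [zpow_neg, zpow_natCast, mul_inv_cancel₀ (pow_ne_zero _ (a1.1 a2 l))]⟩) z
  have cP : cls n M = cls n L - (N • cls n (Bd.can n A.Z.X) +
      (cls n (lin D fun l => ((m l).toNat : ℕ)) - cls n (lin D fun l => ((-m l).toNat : ℕ)))) := by
    rw [h.cl, Xc.cls_eq n κ ι m N A D σ ok hD, cls_lin fun l => (hD l).lb,
      cls_lin fun l => (hD l).lb, ← Finset.sum_sub_distrib]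
    simp only [← sub_smul, Int.toNat_sub_toNat_neg, add_sub_cancel_left]
  obtain ⟨k₁, e1⟩ := kod modif_id l0 p0 hb.lA
  obtain ⟨k₂, e2⟩ := kod modif_id hb.lA pH l0
  obtain ⟨k₃, e3⟩ := kod modif_id hb.lA pH (hE fun l => (-m l).toNat)
  replace e1 : P285W.Kx.Ef A.Z (k₁ • cls n H₀ - cls n H) := e1
  replace e2 : P285W.Kx.Ef A.Z (k₂ • cls n H - cls n H₀) := e2
  replace e3 : P285W.Kx.Ef A.Z (k₃ • cls n H - cls n (lin D fun l => ((-m l).toNat : ℕ))) := e3
  refine ⟨r, H, r0, hb, 1 + k₁ * k₂ + C * k₃ * k₁ + C * k₃, fun q hq a c E h0 => ?_⟩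
  have l1 := lb_mul (lb_pow h.lbM (r * q)) hb.lA
  obtain ⟨j, j0, e4⟩ := P285W.Kx.efp n A.Z _ inferInstance l1 (h.nfM H hb.lA pH (r * q))
  have l2 := lb_mul (lb_pow hb.lL a) (lb_pow hb.lA c)
  have l3 : IsLB n (P285W.Wr.bd n (L.pow r) H a c E) := lb_mul l2 (lb_pow lK E)
  have N0 := ok.pos
  set l := j * q * r * N with hl
  set a' := l * a + E * j * q with ha'
  set c₁ := k₁ * (l * c + E * j) with hc₁
  obtain ⟨Z₁, z1, z2⟩ := (((((msf e4).smul E).add ((msf e1).smul (l * c + E * j))).add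
    (mE (fun l => (m l).toNat) (E * j * q * r : ℕ))).add
    (mE (fun l => (-m l).toNat) (-(E * j * q * r : ℕ)))).mul ok.snc l3 (la1 hb.lL l0 a' c₁)
    (l := l) (by
      rw [la2 hb.lL l0, P285W.Wr.bd, cls_mul l2 (lb_pow lK E),
        cls_mul (lb_pow hb.lL _) (lb_pow hb.lA _), cls_mul (lb_pow h.lbM _) hb.lA, cls_pow hb.lL,
        cls_pow hb.lA, cls_pow lK, cls_pow h.lbM, cls_pow h.lb, cP, ha', hc₁, hl]
      module)
  obtain ⟨Z₂, z3, z4⟩ := ((((msf e2).smul c₁).add ((msf e3).smul (C * (c₁ + 1)))).add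
    (mE (fun l => (-m l).toNat) (C * (c₁ + 1) : ℕ))).mul ok.snc (la1 hb.lL l0 a' c₁)
    (la1 hb.lL hb.lA a' (c₁ * k₂ + C * (c₁ + 1) * k₃)) (l := 1) (by
      rw [la2 hb.lL l0, la2 hb.lL hb.lA]
      module)
  refine ⟨l, _, _, _, ar hq j0 (by
    rw [hl, mul_assoc]
    exact Nat.le_mul_of_pos_right _ (by positivity)) h0, ((snc_thin_off ok.snc).union z1).union z3,
    fun s hs => ?_⟩
  obtain ⟨s₁, s1, s2⟩ := z2 (fun _ => 0) s (secP_of_sec continuous_id hs fun _ => le_rfl)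
  obtain ⟨s₂, s3, s4⟩ := z4 _ s₁ (hF c₁ (a' * r) (E * j * q * r) _ s₁ (la1 hb.lL l0 a' c₁)
    (by rw [la2 hb.lL l0, cls_pow h.lb, smul_smul, add_comm]) (s1.mono continuous_id fun o => by
      push_cast
      have : (0 : ℝ) ≤ E * j * q * r * ((m o).toNat : ℕ) := by positivity
      linarith))
  obtain ⟨w, w1, w2, w3⟩ := s3.ext ok.snc (la1 hb.lL hb.lA _ _) isOpen_univ fun o => by
    push_cast
    linarith
  refine ⟨w, isSec_of (fun a x => w1 a x trivial) fun a b x => w2 a b x trivial,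
    fun x hx φ hφ => ?_⟩
  have x1 : x ∈ off A.G := not_not.1 fun k => hx (.inl (.inl k))
  have k : Rl _ s₂ _ w 1 x := fun i hi => ⟨i, fun _ => 1, hi, continuousAt_const, one_ne_zero, by
    filter_upwards [(snc_open_off ok.snc).mem_nhds x1, lb_near (la1 hb.lL hb.lA _ _) hi] with y b1 b2
    rw [pow_one, mul_one, w3 i y trivial b2 b1]⟩
  simpa only [pow_one] using k.sz ((s4 x x1 fun k => hx (.inr k)).sz
    ((s2 x x1 fun k => hx (.inl (.inr k))).sz hφ))

end Vale.Agent.P270Q.K59
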