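import Vale.Agent.P270Q.Defs2
import Vale.Agent.P270G.End0
import Vale.Agent.P285M.Nl.Defs
import Vale.Agent.P285M.Nl.Oj49
import Vale.Agent.P285M.Sg.Xq18
import Vale.Agent.P285M.One18
import Vale.Agent.P281Z.Sc.Ord

/-!
# P270Q: no families of small slope on fivefolds, for polarised pairs
-/

open Set Function
open Vale.Agent.P272.K Vale.Agent.P285.H281.FD Vale.Agent.P281Z Vale.Agent.P280Z
open Vale.Agent.P277Z (at_chart)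
open Vale.Agent.P285N (Pr)
open Vale.Agent.P285N.Tp (FLC)
open Vale.Agent.P285W Vale.Agent.P285W.J Vale.Agent.P285W.Bs
open Vale.Agent.P285S Vale.Agent.P285S.B2
open Vale.Agent.P285M.Sg Vale.Agent.P270F.Tk

open Vale.Agent.P285M Vale.Agent.P285M.Nl

namespace Vale.Agent.P270Q

namespace N81

theorem ncj (hS : SGG) (h1 : NLU) (h2 : NDM) {T : CT} (hT : T.OK) (hF : FLC T) {ν N : ℕ} {t : ℝ}
    {κ ι : Type} [Fintype κ] {A : Pr 5 κ ι} {m : κ → ℤ} {L H Λ L₀ M₀ : Bd A.Z.X}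
    (hb : Ba A.Z L H) (hP : P270H.G0 A m N L₀ M₀) (hk : Pse A.Z (cls 5 A.P)) (t0 : 0 < t)
    (ht : T.c1 A.Z L₀ = t • T.c1 A.Z L) (hν : ¬ Zr T A.Z (T.c1 A.Z L ^ ν))
    (hN : Neg 5 (Tr T A.Z (T.c1 A.Z L))) (lΛ : IsLB 5 Λ) (bΛ : Bpf 5 Λ)
    (big : 0 < T.int A.Z (T.c1 A.Z Λ ^ 5))
    (nz : ∀ k, m k < 0 → N4.Nz T A.Z (T.c1 A.Z Λ ^ 4) (A.G k))
    (nt : NTp T A.Z (T.c1 A.Z Λ) (T.c1 A.Z L) ∅) : ¬ CJ T A.Z L H ν := by
  rintro ⟨d, c, c0, c1, c2, c3, c4, ε, S, e0, s1, js⟩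
  have bz : O.Bz A.Z L H := ⟨hb.conn, hb.lL, hb.lA, hb.pos, hb.bA⟩
  have cY := bz.cp
  have fΛ : Bf T A.Z (T.c1 A.Z Λ) := ⟨Λ, lΛ, bΛ, rfl⟩
  have nl : Nq T A.Z (T.c1 A.Z L) := ⟨bz.nef hT, L, hb.lL, rfl⟩
  obtain ⟨b, X, B, π, hπ, γ, hγ, M, e, ⟨Q, fq⟩, cB, bM, kM, dm, hX, ps⟩ := xq3 hT
    ⟨cY, nl.1, bz.kc0 hT, H, hb.lA, hb.bA, rfl⟩ fΛ big c1 c2 c4
  refine hS T hT hF 5 b A.Z X B _ κ ι A m N L₀ M₀ _ _ modif_id t π hπ γ hγ M _ cY hP hk t0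
    (by rw [hT.rg.pull_id]; exact ht) (by omega) hN hX fun k k0 f U p hp en hU hr ⟨x, hx⟩ => ?_
  obtain rfl : f = 4 := by omega
  by_cases q : T.pull hp (T.pull hπ (T.c1 A.Z Λ)) ^ (4 - 1) = 0
  · refine H18.one hT (s := 2) hp cY hU nl fΛ bM dm hX ps (by omega) hν (by
      obtain rfl | rfl | rfl : d = 2 ∨ d = 3 ∨ d = 4 := by omega
      all_goals omega) ⟨x, hx.of_comp (hπ.at _) (hp.at _)⟩ fun i j y k1 k2 => ?_
    rw [map_mul (T.pull (hπ.comp hp)), map_pow, map_pow]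
    refine h2 T hT 5 4 3 A.Z U _ (hπ.comp hp) _ _ hU nl fΛ nt (fun y _ => ?_) i j k1 y k2
    rw [hT.rg.pull_comp hp hπ (hπ.comp hp) fun _ => rfl, q, zero_mul, map_zero]
  by_cases i1 : ∃ x, Imm 5 5 π (p x)
  swap
  · obtain ⟨x₀, hx₀⟩ := hX.imm
    have cX := hX.cp.conn
    obtain ⟨R₀, ρ, r1, r2, r3, r4⟩ := P285W.O.JacH.along hT hπ (holM_id (X := X.X))
    obtain ⟨b₀, hb'⟩ := r1.cover x₀
    refine N4.znz T hT 5 X R₀ ρ _ hX.cp r1 r2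
      (KodA.dense_nz r1 r2 hb' ((r3 x₀).2 hx₀ b₀ hb')) hX.mn (by
        rw [r4, hT.rg.pull_id, hT.rg.pull_id]; exact hX.ram) 4 U p hp rfl hU
      (range_subset_iff.2 fun x k => i1 ⟨x, (r3 _).1 k⟩)
  obtain ⟨O, σ, hO⟩ := (Hyp.of_snc hP.ok.snc).exists_div
  have h0 := hO k
  obtain ⟨E, i, hc⟩ := Ld.BerH.cut h0.lb h0.sec fun y => (h0.lb.cover y).imp fun a ha =>
    ⟨_, ha, at_chart y, ((h0.leq a y ha).2 _ (at_chart y)).2⟩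
  have hz : {y | ¬ NZ (O k) (σ k) y} = A.G k := Set.ext fun y => (h0.lb.cover y).elim fun a ha =>
    (Ld.not_nz h0.lb h0.sec ha).trans (h0.leq a y ha).mem
  refine h1 T hT 5 4 b d c A.Z X B E U L H _ Λ _ i hc S ε π hπ γ Q fq _ p hp e (by omega) bz e0 c0
    c1 s1 js lΛ bΛ nt ?_ hX.cp cB kM ⟨M, hX.lb, bM, rfl⟩ ?_ hU (fun x => ?_) i1 q
  · rw [← map_pow, ← hT.pl hc]
    exact N4.nze T hT 4 A.Z _ _ _ cY h0.lb h0.sec
      ((P277Z.Slc.Dv.dense_compl h0.ex).mono fun y k a ha => mt (h0.leq a y ha).mem.1 k)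
      (hz ▸ nz k k0)
  · obtain ⟨w, kw, lw⟩ := dm
    have a' := nf_pull hT hπ (kc_nf hT (bz.kc0 hT))
    have k1 := domp hT ((le_kc hT kw a').trans lw) a' (nf_pull hT hπ (bf_nf hT fΛ)) (d - (c + 1))
      (((nf_pull hT hπ nl.1).mn.pow (c + 1)).mul ((nf_pull hT hγ (kc_nf hT kM)).mn.pow b)) (by
        rw [← hX.lz, map_mul (T.pull hπ), map_pow, map_pow, show d - 1 - c = d - (c + 1) by omega]
        congr 1
        ring)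
    rw [← k1, map_mul (T.pull hπ), map_pow, map_pow]
    congr 1
    ring
  · rw [hc.emb.rng, hz]
    obtain ⟨y, y1, y2⟩ := hr (mem_range_self x)
    exact y2 ▸ y1

end N81

/-- ROW NCG in dimension five -/
theorem ncg_of (hS : SGG) (h1 : NLU) (h2 : NDM) : NCG 5 := by
  intro T hT κ ι _ A m N hF L M Λ H ν r h hr hb hν n0 nl hN c
  have r0 : (0 : ℝ) < r := Nat.cast_pos.2 hr
  refine N81.ncj hS h1 h2 hT hF hb h.toG0 h.ps (inv_pos.2 r0)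
    (by rw [hT.c1.pow A.Z L r h.lb, smul_smul, inv_mul_cancel₀ r0.ne', one_smul]) hν.1
    hN h.fb.lb h.fb.bpf (h.fb.vol hT h.ok.conn) (fun k k0 => by simpa using h.nz k k0 4 0)
    (fun u d U p hp b e1 e2 e3 e4 e5 => ?_) (cj_of_ca hT hb hN hν n0 nl c)
  rw [hT.c1.pow A.Z L r h.lb, map_smul, smul_mul_assoc, map_smul,
    h.nt u d U p hp b e1 e2 e3 e4 e5, smul_zero]

end Vale.Agent.P270Q
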