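import Vale.Agent.P270Q.Defs2
import Vale.Agent.P270V.Gf071
import Vale.Agent.P270G.Rgn
import Vale.Agent.P270G.Top
import Vale.Agent.P285S.N4.Rign
import Vale.Agent.P285S.N4.Nze
import Vale.Agent.P285T.Cb.Trv
import Vale.Agent.P285S.Tp.Fin

/-!
# P270Q, row PRG: the pair on a log resolution
-/

open Set Filter
open Vale.Agent.P272.K Vale.Agent.P285.H281.FD Vale.Agent.P281Z Vale.Agent.P280Z
open Vale.Agent.P277.HD (pull)
open Vale.Agent.P285N Vale.Agent.P285N.Tp Vale.Agent.P285W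
open Vale.Agent.P285S.Tp (nf_comp)
open Vale.Agent.P270G

noncomputable section

namespace Vale.Agent.P270Q

/-- rigid components are null -/
theorem P66.nz {T : CT} (hT : T.OK) {n : ℕ} {κ ι : Type} [Fintype κ] {A : Pr n κ ι} {m : κ → ℤ}
    {N : ℕ} (hA : A.Ok m N) {L Λ : Bd A.Z.X} (hL : IsLB n L) (nL : P285N.Tp.Nf A.Z L)
    (hF : Fb A.Z Λ) (hR : Xc.Rig A m Λ L) (l : κ) (hl : m l < 0) (i j : ℕ) :
    P285S.N4.Nz T A.Z (T.c1 A.Z L ^ j * T.c1 A.Z Λ ^ i) (A.G l) := by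
  intro d U p hp e
  subst e
  obtain ⟨hΛ, bΛ, H, hH, pH, hE⟩ := hF
  obtain ⟨O, σ, hO⟩ := (Hyp.of_snc hA.snc).exists_div
  have nP := J.nf_of hT hA.prj hL nL
  have nΛ := J.bf_nf hT ⟨Λ, hΛ, bΛ, rfl⟩
  refine P285S.N4.rg_nz P285S.N4.znz hT ⟨hA.conn, hA.prj⟩ hO l
    ((nP.mn.pow j).mul (nΛ.mn.pow i)) ?_ d U p hp rfl
  by_cases k : i + j = d
  · subst k
    exact P285S.N4.rg_bin hT (P285S.En.ef_div hO l) nΛ nP
      (RgnH.rign hT hA hL nP hO hΛ nΛ hH pH hE hR hl)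
  · exact J.dg_int hT (J.dg_mul hT (hT.c1.deg _ (O l))
      (J.dg_mul hT (J.dg_pow hT (J.nf_dg hT nP) j) (J.dg_pow hT (J.nf_dg hT nΛ) i))) (by omega)

theorem prg66 : PRG := by
  intro n T hT V Q D t q C M ⟨hQ, K, eC, lM, nM, τ, i1, i2⟩
  have r := hQ.bir.res
  have := hQ.conn
  obtain ⟨p, R, -, hR, lt, -⟩ := lrk2 n V Q D t q C Q.E 1 (fun _ => Q.s) hQ K r.lbE
    (fun _ => r.secE) ⟨0, r.nzE⟩
  obtain ⟨H, c, h1, h2, hF⟩ := rgq n V Q C _ R hQ hR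
  obtain ⟨B, hM⟩ := hR.md
  have hπ := hM.hol
  have ok := hR.ok
  have := ok.conn
  have a1 := r.lbA
  have lL := r.lbL
  have hL := hπ.lb lL
  have hA := hπ.lb a1
  have cP : cls n R.A.P = R.k • cls n (pull R.π C) := cls_pow (hπ.lb K.lb) _
  have cL : cls n Q.L = cls n C + cls n M := by
    rw [← cls_mul K.lb lM, cls_eq r.lbL (lb_mul K.lb lM)]
    exact ⟨τ, fun a b x ha hb e he => (i1 a b e x he ha hb).1.analyticAt,
      fun a b x ha hb => (i1 a b _ x (P277Z.at_chart x) ha hb).2, i2⟩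
  have g0 : P270H.G0 R.A R.m R.N ((pull R.π Q.L).pow R.k) ((pull R.π M).pow R.k) := by
    refine ⟨ok, lt, lb_pow hL _, P285S.Tp.F4.nf_pw hL (nf_comp hπ hQ.prj r.lbL (D30H.nf hQ)) _,
      lb_pow (hπ.lb lM) _, P285S.Tp.F4.nf_pw (hπ.lb lM) (nf_comp hπ hQ.prj lM nM) _, ?_⟩
    rw [cP, cls_pow hL, cls_pow (hπ.lb lM), cls_pull hπ r.lbL, cls_pull hπ K.lb, cls_pull hπ lM,
      cL, map_add, smul_add]
  have ps : P285S.Pse R.Y (cls n R.A.P) :=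
    cP ▸ P270V.pse_up71 hM hQ.prj K.lb (psef_eff K.lb eC) R.k
  have bA : Bpf _ (pull R.π Q.A) := fun y => by
    obtain ⟨c, hc⟩ := a1.cover (R.π y)
    obtain ⟨a, ha⟩ := r.free c _ hc
    exact ⟨_, hπ.sec (r.sec a), (nz_iff a1 (fun b b' => (r.sec a).change b b' _) hc).2 ha⟩
  obtain ⟨k, s, s1, c', x, s2, s3⟩ := kodp2 _ V R.Y Q R.π B _ hQ ok.conn hM (lb_zp h1 (-1))
  have hT' := lb_mul (lb_pow hA k) (lb_zp h1 (-1))
  have hΛ := lb_pow hA (k + 1)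
  have bΛ : Bpf n ((pull R.π Q.A).pow (k + 1)) := J.ScaleX.bpf_pow bA _
  have eΛ : P285S.Ef R.Y (cls n ((pull R.π Q.A).pow (k + 1)) - cls n H) := by
    obtain ⟨u, u1, u2⟩ := bA x
    have k1 := P285S.Tp.ef_add (Y := R.Y) ⟨_, s, hT', rfl, s1, x,
      (nz_iff hT' (fun a b => s1.change a b x) s2).2 s3⟩ ⟨_, u, hA, rfl, u1, x, u2⟩
    rw [cls_mul (lb_pow hA k) (lb_zp h1 _), cls_zp h1, cls_pow hA] at k1
    refine (congrArg (P285S.Ef R.Y) ?_).mp k1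
    rw [cls_pow hA]
    module
  have fb : Fb R.Y ((pull R.π Q.A).pow (k + 1)) := ⟨hΛ, bΛ, H, h1, h2, eΛ⟩
  have rig : Xc.Rig R.A R.m ((pull R.π Q.A).pow (k + 1)) ((pull R.π Q.L).pow R.k) :=
      fun k' i N t m1 m2 ⟨j, m3⟩ => by
    have e := lb_mul (lb_pow lL (i * R.k)) (lb_pow a1 (k' * (k + 1)))
    refine Xc.secP_of_cls ok.snc (hπ.lb e) m1 ?_ (fun t' ht => ?_) m3
    · rw [m2, cls_pow hL, cls_pow hA, ← mul_smul, ← mul_smul, ← cls_pow hA, ← cls_pow hL,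
        add_comm (cls _ _), ← cls_mul (lb_pow hL _) (lb_pow hA _)]
      rfl
    · obtain ⟨u, u1, u2⟩ := har2 _ V R.Y Q R.π B _ R.G _ _ t' hQ hM ok.snc e
        (rg _ V Q _ 1 1 (P285S.Tp.mu hQ) _ _).2 (fun l hl => hR.exc l (by
          by_contra h
          simp [h] at hl)) ht
      exact (secP_of_sec continuous_id (hπ.sec u1) fun _ => le_rfl).congr (hπ.lb e) isOpen_univ
        (Hyp.of_snc ok.snc).isOpen fun a y _ ha hy => u2 a y ha hy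
  refine ⟨_, _, inferInstance, R.A, R.m, R.N, R.π, B, R.k, (pull R.π M).pow R.k, _, hM, hR.kp,
    ⟨g0, ps, H, c, h1, h2,
      fun k i j M' s m1 m2 => hF k (i * R.k) j M' s m1 (by rw [m2, cls_pow hL, mul_smul])⟩,
    P285S.Tp.eff_pull hM eC R.k, g0, ps, fb, P66.nz hT ok g0.lb g0.nef fb rig,
    fun m d W p hp b e1 e2 e3 e4 e5 => ?_⟩
  have pc := hT.rg.pull_comp hp hπ (hπ.comp hp) fun _ => rfl
  rw [hT.c1.pow _ _ _ hA, hT.c1.pull hπ _ a1, map_smul, ← pc, smul_mul_assoc, map_smul,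
    smul_eq_mul] at e5
  rw [hT.c1.pow _ _ _ hL, hT.c1.pull hπ _ lL, map_smul, ← pc, smul_mul_assoc, map_smul,
    P285T.Cb.trv T hT _ V Q hQ m d W _ (hπ.comp hp) b e1 e2 e3 e4
      ((mul_eq_zero.1 e5).resolve_left (by positivity)), smul_zero]

end Vale.Agent.P270Q
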