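import Vale.Agent.P270Q.Top3
import Vale.Agent.P270Q.Prg66
import Vale.Agent.P285M.As.AllL
import Vale.Agent.P285M.Nl.Nca
import Vale.Agent.P285M.Sg.All
import Vale.Agent.P270Q.All
import Vale.Agent.P270Q.Dnr3
import Vale.Agent.P270Q.Kxg59
import Vale.Agent.P270Q.Ncg81
import Vale.Agent.P285M.Nl.Top
import Vale.Agent.P285M.Nl.Gam24
import Vale.Agent.P285M.Nl.Gcv41
import Vale.Agent.P285M.Nl.Cur22
import Vale.Agent.P285M.Nl.Pmq97
import Vale.Agent.P285M.Nl.Fib28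
import Vale.Agent.P285M.Nl.Fcc28
import Vale.Agent.P285M.Nl.Trv99
import Vale.Agent.P285M.Nl.Nlw77
import Vale.Agent.P285M.Nl.Tsg49
import Vale.Agent.P285M.Nl.Cnt13
import Vale.Agent.P285M.Nl.Ndm16
import Vale.Agent.P285M.Wt.All

/-!
# P270Q: assembly for singular pairs
-/

open Vale.Agent.P270G

namespace Vale.Agent.P270Q

open P285M.Nl in
theorem nlu : NLU := nlu_of gam24 (gcv_of cur22) pmq97 fib28 fcc28 trv99
  (nlw77 (tsg_of P285M.Wt.wt)) cnt13 ndm16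

theorem nor4_of (mm : P285M.As.MMT 5) : NOR 4 :=
  nor_of nuu rgn (ins_of nzu) (frm_of sgg) le_rfl
    (mm1_pre crep gen nzu rgn avg P285S.Tp.As.sae5 P285S.B2.neg0 rfm89 le_rfl mm) kez81 dnr3
    prg66 K59.kxg59 (ncg_of sgg nlu P285M.Nl.ndm16)

theorem nvl5_of (mm : P285M.As.MMT 5) : P285M.As.NVL 5 :=
  P285M.As.nvl5 mm (P285M.Nl.nca_of P285M.Sg.sgc nlu P285M.Nl.ndm16)

end Vale.Agent.P270Q
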