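import Vale.Agent.P270Q.All2
import Vale.Agent.P285M.Ms.All24

/-!
# P270Q: everything
-/

namespace Vale.Agent.P270Q

theorem nor4 : NOR 4 := nor4_of P285M.Ms.mmt5_24

theorem nvl5 : P285M.As.NVL 5 := nvl5_of P285M.Ms.mmt5_24

end Vale.Agent.P270Q
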