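import Vale.Agent.P270Q.All3

/-!
# P270Q: manifolds of dimension at most five with a nef log canonical divisor
-/

open Vale.Agent.P272.K Vale.Agent.P285.H281.FD Vale.Agent.P281Z
open Vale.Agent.P285N.Tp (Wf)
open Vale.Agent.P285Z (St.logCan St.Divisor)
open Vale.Agent.P285N.St (Psef)

namespace Vale.Agent.P270Q

theorem alq5 {n : ℕ} {V : Mf n} {D : Bd V.X} {t : D.ι → V.X → ℂ} {q : ℕ} {M : Bd V.X} {w : Wf V}
    (h5 : n ≤ 5) (hc : ConnectedSpace V.X) (hP : V.Prj) (hw : IsKahler w)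
    (hD : St.Divisor n D t) (hq : 1 ≤ q) (hk : Klt n q D t) (hC : Psef n (St.logCan n q D))
    (hM : IsLB n M) (hm : Nef w M) (hn : Nef w ((St.logCan n q D).mul M))
    (h : Nef w (St.logCan n q D)) : NumSemiample n ((St.logCan n q D).mul M) := by
  refine alq0 nor4 hc hP hw hD hq hk hC hM hm hn ?_
  rcases h5.lt_or_eq with c | rfl
  · exact .inr (.inl (by omega))
  have hL := lb_mul (lb_pow (P277Z.Slc.isLB_can (n := 5)) q) hD.lb
  obtain ⟨⟨A, N, S, hQ⟩, k⟩ := P285N.Tp.smo 5 V w _ hc hP hw hL h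
  exact .inl ⟨le_rfl, hs_of hc hL (fiveK nvl5 le_rfl hQ (k D t q hD hq hk))⟩

end Vale.Agent.P270Q
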