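import Vale.Agent.P270Q.Nog
import Vale.Agent.P270V.NumAll
import Vale.Agent.P285S.Tp.All5
import Vale.Agent.P285L.Cn.Top20

/-!
# P270Q: effective klt pairs of dimension at most five
-/

open Set
open Vale.Agent.P272.K Vale.Agent.P285.H281.FD Vale.Agent.P281Z Vale.Agent.P280Z
open Vale.Agent.P285N Vale.Agent.P285W.J Vale.Agent.P285W.Bs
open Vale.Agent.P285N.Tp (Rd Wf Eff Rows O1G rows o1g)
open Vale.Agent.P285S.B2 (Zr Nu)
open Vale.Agent.P280Z.Co (ct ct_ok)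
open Vale.Agent.P270G
open Vale.Agent.P285Z (St.logCan St.Divisor)
open Vale.Agent.P285N.St (SubPair Psef Iso)
open Vale.Agent.P285S.St (HasSec back)
open Vale.Agent.P285L.St (SetupC NefC NumSemiampleX)
open Vale.Agent.P285L.Cn
open Vale.Agent.P270V (Cn kn)

namespace Vale.Agent.P270Q

theorem ga_s {d : ℕ} (hd : d ≤ 4) (R : Rows ct) (o : O1G ct) (no : NOR d) (cb : P270H.CBG)
    (tru : P270U.TRU) (k3 : KD3) (gd : GDF) (sa : P285S.SA fun e _ L => e ≤ 5 ∧ Eff e L)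
    (ns : NSD) {V : Mf (d + 1)} {Q : Rd V} {D : Bd V.X} {t : D.ι → V.X → ℂ} {q : ℕ} {C M : Bd V.X}
    (h : Gq Q D t q C M) : NumSemiample (d + 1) Q.L := by
  have hT := R.ok
  have hL := h.ok.bir.res.lbL
  have cV : Cp V := ⟨h.ok.conn, h.ok.prj⟩
  by_cases h2 : Zr ct V (ct.c1 V Q.L ^ 2)
  · exact h.one R o h2
  by_cases h3 : Zr ct V (ct.c1 V Q.L ^ (d + 1))
  swap
  · obtain ⟨κ, ι, _, A, m, N, π, S, hπ, a, g1, g2, g3, g4⟩ := gd _ ct hT V Q D t q C M h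
      (k3 ct hT _ V _ M cV hL h.lb (h.nf R) h.nef h3)
    exact ns ct hT R.flc _ V A.Z π S hπ _ A.P a cV g1.ok.prj hL g1.ok.lb
      (sa _ κ ι A m N g1 ⟨by omega, g2⟩) g3 g4
  classical
  have := cV.conn
  have ex : ∃ j, Zr ct V (ct.c1 V Q.L ^ (j + 1)) := ⟨d, h3⟩
  have a1 : Nat.find ex ≤ d := Nat.find_min' ex h3
  have a2 : 0 < Nat.find ex := Nat.pos_of_ne_zero fun e => h2 fun y hy => by
    have k := Nat.find_spec ex
    rw [e, zero_add, pow_one] at k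
    rw [sq, mul_assoc]
    exact k _ ((nf_of hT cV.prj hL (h.nf R)).mn.mul hy)
  have nu : Nu ct V (ct.c1 V Q.L) (Nat.find ex) := ⟨fun c => Nat.find_min ex
    (m := Nat.find ex - 1) (by omega) (by rwa [Nat.sub_add_cancel a2]), Nat.find_spec ex⟩
  refine cb _ 1 V Q D t q C M h.ok h.sub (psef_eff h.sub.lb h.eff) h.lb h.nef h.iso (by omega)
    fun c => no ct hT V Q D t q C M h R.flc _ a2 a1 nu ?_
  have := tru ct hT _ V V _ _ modif_id _ 1 cV cV.prj one_pos (.inr ⟨hT.c1.deg V Q.L, c⟩)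
  rwa [one_smul, hT.rg.pull_id] at this

variable {n : ℕ} {V : Mf n} {Q : Rd V} {D : Bd V.X} {t : D.ι → V.X → ℂ} {q : ℕ}
  {C M : Bd V.X} {w : Wf V}

theorem alq1 (g : NOR 4) (hQ : Q.Ok) (hw : IsKahler w) (h : SubPair n Q.E Q.s D t q C)
    (hC : Psef n C) (hM : IsLB n M) (hn : Nef w M) (hi : Iso n Q.L (C.mul M))
    (hc : (n ≤ 5 ∧ HasSec n C) ∨ Cn w C M Q.L) : NumSemiample n Q.L := by
  rcases hc with ⟨h5, e⟩ | hc
  swap
  · exact P270V.aln1 kn hQ hw h hC hM hn hi hc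
  have k : Gq Q D t q C M :=
    ⟨hQ, h, e, hM, (P285N.Tp.nefp n n V V (fun x => x) _ contMDiff_id hM).1 w hw hn, hi⟩
  rcases h5.lt_or_eq with c | rfl
  · exact ga4 n (by omega) V Q D t q C M k
  · exact ga_s le_rfl rows o1g g P270H.cbg P270U.tru kd3 (gdf_of rgq fpf) P285S.Tp.As.sae5 nsd k

theorem alq0 (g : NOR 4) (hc : ConnectedSpace V.X) (hP : V.Prj) (hw : IsKahler w)
    (hD : St.Divisor n D t) (hq : 1 ≤ q) (hk : Klt n q D t) (hC : Psef n (St.logCan n q D))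
    (hM : IsLB n M) (hm : Nef w M) (hn : Nef w ((St.logCan n q D).mul M))
    (h : (n ≤ 5 ∧ HasSec n (St.logCan n q D)) ∨
      Cn w (St.logCan n q D) M ((St.logCan n q D).mul M)) :
    NumSemiample n ((St.logCan n q D).mul M) := by
  have hL := lb_mul (lb_mul (lb_pow (P277Z.Slc.isLB_can (n := n)) q) hD.lb) hM
  obtain ⟨⟨A, N, S, hQ⟩, k⟩ := P285N.Tp.smo n V w _ hc hP hw hL hn
  exact alq1 g hQ hw (k D t q hD hq hk) hC hM hm (P285N.Tp.iso_refl hL) h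

theorem alqx (g : NOR 4) (hc : ConnectedSpace V.X) (hP : V.Prj) (hw : IsKahler w) {X : P277.CSp}
    {C₀ M₀ : Bd X.pt} {μ : V.X → X.pt} {E : Bd V.X} {s : E.ι → V.X → ℂ} (h0 : SetupC n X μ E s)
    (lM : P277.IsLBx X M₀) (lD : P277.IsLBx X (C₀.mul M₀)) (nM : NefC X M₀)
    (nD : NefC X (C₀.mul M₀)) (h : SubPair n E s D t q (back μ C₀)) (hC : Psef n (back μ C₀))
    (hs : (n ≤ 5 ∧ HasSec n (back μ C₀)) ∨
      Cn w (back μ C₀) (back μ M₀) (back μ (C₀.mul M₀))) :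
    NumSemiampleX n X μ (C₀.mul M₀) := by
  obtain ⟨A, N, S, pe⟩ := h0.prj
  obtain ⟨Z, res, ex⟩ := h0.res
  have k1 := P285L.K24.kly hc hP res.cont res.hol lM nM
  have b := birD P270V.A37.bpfg ⟨hc, hP⟩ h0.two pe lM lD h0.div res ex h k1
    (P285L.K24.kly hc hP res.cont res.hol lD nD)
  have l1 := P285L.T24.lb res.cont res.hol lM
  exact P285L.F47.dsfc h0.normal res hP lD (alq1 (Q := ⟨_, _, _, _, E, s⟩) g ⟨hc, hP, b⟩ hw h hC l1
    (P285S.Tp.nef_of_nf hP l1 k1 hw) (P285N.Tp.iso_refl b.res.lbL) hs)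

end Vale.Agent.P270Q
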