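import Vale.Agent.P270Q.All
import Vale.Agent.P270Q.Top2
import Vale.Agent.P270Q.Dnr3
import Vale.Agent.P270Q.Prg66
import Vale.Agent.P270Q.Kxg59
import Vale.Agent.P270Q.Ncg81
import Vale.Agent.P285M.Nl.All2

/-!
# P270Q: assembly for singular pairs
-/

open Vale.Agent.P270G

namespace Vale.Agent.P270Q

theorem nor4_66 (mm : P285M.As.MMT 5) : NOR 4 :=
  nor_of nuu rgn (ins_of nzu) (frm_of sgg) le_rfl
    (mm1_pre crep gen nzu rgn avg P285S.Tp.As.sae5 P285S.B2.neg0 rfm89 le_rfl mm) kez81 dnr3 prg66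
    K59.kxg59 (ncg_of sgg P285M.Nl.A2.nlu P285M.Nl.ndm16)

end Vale.Agent.P270Q
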