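import Vale.Agent.P270Q.Defs

/-!
# P270Q: the rows for singular pairs
-/

open Set Function
open Vale.Agent.P272.K Vale.Agent.P285.H281.FD Vale.Agent.P281Z Vale.Agent.P280Z
open Vale.Agent.P277.HD (pull)
open Vale.Agent.P285N (Pr)
open Vale.Agent.P285N.Tp (FLC Eff)
open Vale.Agent.P285W.J (Tr Mn NTp)
open Vale.Agent.P285W.Bs (KU)
open Vale.Agent.P285S (Pse)
open Vale.Agent.P285S.B2 (Nu Ba)
open Vale.Agent.P270G (ForP ForQ Dn zz Fb)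
open Vale.Agent.P270H (G0 Gf)

namespace Vale.Agent.P270Q

/-- Calabi-Yau pairs above all the divisors -/
def Dq (T : CT) {d : ℕ} (V : Mf (d + 1)) (L : Bd V.X) (ν : ℕ) : Prop :=
  ∀ (D : Bd V.X) (s : D.ι → V.X → ℂ), IsLB (d + 1) D → IsSec (d + 1) D s → (∃ x, NZ D s x) →
  ∃ (κ ι : Type) (_ : Fintype κ) (A : Pr (d + 1) κ ι) (m : κ → ℤ) (N : ℕ) (π : A.Z.X → V.X)
    (S : Set V.X) (Λ : Bd A.Z.X) (hπ : Modif (d + 1) π S) (y : T.H V),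
    Dn T A m N (pull π L) Λ ν ∧ (∀ x ∈ off A.G, π x ∉ S ∧ NZ D s (π x)) ∧ Mn T V y ∧
    zz T A.Z (pull π L) Λ ν = T.pull hπ.hol (T.c1 V L ^ ν * y)

/-- ROW DNR: on all the models -/
def DNR : Prop := ∀ d, ForQ (d + 1) fun T V Q _ _ => ∀ (ν : ℕ) (V' : Mf (d + 1)) (e : V'.X → V.X)
  (B : Set V.X), ν ≤ d → Nu T V (T.c1 V Q.L) ν → Modif (d + 1) e B → V'.Prj →
  Dq T V' (pull e Q.L) ν

/-- polarised klt pairs; the free and big bundle `Λ` contracts the negative components -/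
structure Kg (T : CT) {n : ℕ} {κ ι : Type} [Fintype κ] (A : Pr n κ ι) (m : κ → ℤ) (N : ℕ)
    (L M Λ : Bd A.Z.X) : Prop extends G0 A m N L M where
  ps : Pse A.Z (cls n A.P)
  fb : Fb A.Z Λ
  nz : ∀ l, m l < 0 → ∀ i j : ℕ, P285S.N4.Nz T A.Z (T.c1 A.Z L ^ j * T.c1 A.Z Λ ^ i) (A.G l)
  nt : NTp T A.Z (T.c1 A.Z Λ) (T.c1 A.Z L) ∅

/-- ROW PRG: the pair on a log resolution -/
def PRG : Prop := ∀ n, ForQ n fun T V Q _ _ =>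
  ∃ (κ ι : Type) (_ : Fintype κ) (A : Pr n κ ι) (m : κ → ℤ) (N : ℕ) (π : A.Z.X → V.X)
    (S : Set V.X) (k : ℕ) (M' Λ : Bd A.Z.X), Modif n π S ∧ 0 < k ∧
    Gf A m N ((pull π Q.L).pow k) M' ∧ Eff n A.P ∧ Kg T A m N ((pull π Q.L).pow k) M' Λ

/-- ROW KXG: the domination of the canonical bundle -/
def KXG : Prop := ∀ n, ForP n fun _ _ _ _ A m N => ∀ L M : Bd A.Z.X, Gf A m N L M → Eff n A.P →
  ∃ (r : ℕ) (H : Bd A.Z.X), 0 < r ∧ Ba A.Z (L.pow r) H ∧ KU A.Z (L.pow r) H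

/-- ROW NCG: no families of small slope -/
def NCG (n : ℕ) : Prop := ForP n fun T _ _ _ A m N => FLC T → ∀ (L M Λ H : Bd A.Z.X) (ν r : ℕ),
  Kg T A m N L M Λ → 0 < r → Ba A.Z (L.pow r) H → Nu T A.Z (T.c1 A.Z (L.pow r)) ν → 0 < ν →
  ν < n → Neg n (Tr T A.Z (T.c1 A.Z (L.pow r))) →
  ¬ P285S.Ob.CA T A.Z (T.c1 A.Z (L.pow r)) (T.c1 A.Z H) ν

/-- **NOR**: the intermediate case does not occur -/
def NOR (d : ℕ) : Prop := ForQ (d + 1) fun T V Q _ _ => FLC T →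
  ∀ ν : ℕ, 0 < ν → ν ≤ d → Nu T V (T.c1 V Q.L) ν → ¬ Neg (d + 1) (Tr T V (T.c1 V Q.L))

end Vale.Agent.P270Q
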