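import Vale.Agent.P270G.Efq
import Vale.Agent.P270G.Hcg
import Vale.Agent.P285T.Ir.All

/-!
# P270Q: non vanishing for fibred and for irregular klt pairs
-/

open Set Filter
open Vale.Agent.P272.K Vale.Agent.P285.H281.FD Vale.Agent.P281Z
open Vale.Agent.P277Z.Slc (IsDiv lin)
open Vale.Agent.P277.HD (pull)
open Vale.Agent.P285N Vale.Agent.P285N.Tp
open Vale.Agent.P285S.Tp (ef_add ef_smul ef_pull sec_cls nf_comp desc)
open Vale.Agent.P285N.St (SubPair Psef Iso)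
open Vale.Agent.P285S.St (Fibred Irregular)
open Vale.Agent.P270G Vale.Agent.P270G.EfqH
open Vale.Agent.P285T

noncomputable section

namespace Vale.Agent.P270Q

theorem efx {n : ℕ} {V : Mf n} {Q : Rd V} {D : Bd V.X} {t : D.ι → V.X → ℂ} {q : ℕ}
    {C M : Bd V.X} (hQ : Q.Ok) (K : SubPair n Q.E Q.s D t q C) (hC : Psef n C) (lM : IsLB n M)
    (nM : Tp.Nf V M) (hi : Iso n Q.L (C.mul M))
    (hf : Fibred n V.X ∨ (n ≤ 5 ∧ Irregular n V.X)) : Eff n C := by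
  obtain ⟨τ, i1, i2⟩ := hi
  have r := hQ.bir.res
  obtain ⟨p, R, -, hR, lt, -⟩ := lrk2 n V Q D t q C Q.E 1 (fun _ => Q.s) hQ K r.lbE
    (fun _ => r.secE) ⟨0, r.nzE⟩
  obtain ⟨H, c, h1, h2, hF⟩ := rgq n V Q C _ R hQ hR
  obtain ⟨B, hM⟩ := hR.md
  have hπ := hM.hol
  have ok := hR.ok
  have := ok.conn
  obtain ⟨O, σ, hO⟩ := (Hyp.of_snc ok.snc).exists_div
  have lO := fun l => (hO l).lb
  have dv := Tp.div_mon hO fun l => (-R.m l).toNat
  have lP := lb_mul ok.lb dv.lb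
  have lL := hπ.lb r.lbL
  have cP : cls n R.A.P = R.k • hπ.pic (cls n C) := by
    rw [← cls_pull hπ K.lb]
    exact cls_pow (hπ.lb K.lb) _
  have cL : cls n Q.L = cls n C + cls n M := by
    rw [← cls_mul K.lb lM, cls_eq r.lbL (lb_mul K.lb lM)]
    exact ⟨τ, fun a b x ha hb e he => (i1 a b e x he ha hb).1.analyticAt,
      fun a b x ha hb => (i1 a b _ x (P277Z.at_chart x) ha hb).2, i2⟩
  have lt' : ∀ l, (((R.m l).toNat : ℕ) : ℤ) < R.N := fun l => by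
    have := lt l
    have := ok.pos
    omega
  obtain ⟨Ω, ok'⟩ := P285S.Mm.mkpr n _ R.Y R.G O σ _ (fun l => (R.m l).toNat) R.N this ok.prj
    ok.snc hO lP ok.pos ok.even (fun l => (lt' l).le) (by
      rw [cls_mul ok.lb dv.lb, Xc.cls_eq n _ _ _ _ R.A O σ ok hO, cls_lin lO, add_assoc,
        ← Finset.sum_add_distrib]
      refine congrArg _ (Finset.sum_congr rfl fun l _ => ?_)
      rw [← add_smul]
      exact congrArg (· • _) (by omega))
  have gm : Ir.Gm R.Y := Ir.bas_of Ir.tauk P285N.D.alb Ir.nvl n R.Y ok.conn ok.prj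
    (hf.imp (Ir.fib_up hM) (.imp_right (Ir.irr_up hM)))
  obtain ⟨A, lA, pA⟩ := hQ.prj
  suffices h : Eff n R.A.P by
    obtain ⟨a, ha, w, w1, b, y, w2, w3⟩ := h
    obtain ⟨u, u1, u2⟩ := desc hM (lb_pow K.lb (R.k * a)) (s := w)
      ⟨w1.holo, fun a b z ha hb => (w1.change a b z ha hb).trans
        (congrArg (· * _) (pow_mul _ _ _).symm)⟩
    exact ⟨_, mul_pos hR.kp ha, u, u1, b, _, w2, u2 b y w2 ▸ w3⟩
  refine untw ok (hcg n _ _ R.m R.N R.A H ((pull R.π Q.L).pow R.k)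
    ok ⟨⟨h1, lb_pow lL _, fun i j M' m1 m2 => ?_⟩, c, fun k i j M' s m1 m2 => hF k (i * R.k) j M' s
      m1 (by rw [m2, cls_pow lL, mul_smul])⟩) hO (Ir.nvf _ _ _ _ _ _ ok'
      (fun l => Int.natCast_nonneg _) ⟨hπ.pic (cls n A), fun k => ?_⟩ gm)
  · have l1 := lb_mul (lb_pow lL (i * R.k)) h1
    have l2 := lb_pow (hπ.lb lM) (j * R.k)
    refine Xc.piso n _ _ M' (lb_mul l2 l1) m1 ?_ (nf_comp hπ hQ.prj lM nM _ l1
      (nf_comp hπ hQ.prj r.lbL (D30H.nf hQ) H h1 h2 _) _)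
    rw [m2, cls_mul l2 l1, cls_mul (lb_pow lL _) h1, cls_pow lL, cls_pow lL, cls_pow (hπ.lb lM), cP,
      cls_pull hπ r.lbL, cls_pull hπ lM, cL, map_add]
    module
  · obtain ⟨j, hj, s, s1, s2⟩ := hC A lA pA (k * R.k)
    have l1 := lb_mul (lb_pow K.lb (k * R.k)) lA
    refine ⟨j, hj, (congrArg (P285S.Ef R.Y) ?_).mp (ef_add (ef_pull hM (ef_of (lb_pow l1 j) s1 s2))
      (ef_smul (ef_of dv.lb dv.sec dv.nz) (j * k)))⟩
    change _ = j • (k • cls n (R.A.P.mul _) + _)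
    rw [cls_mul ok.lb dv.lb, cP, cls_pow l1, cls_mul (lb_pow K.lb _) lA, cls_pow K.lb, map_nsmul,
      map_add, map_nsmul]
    module

end Vale.Agent.P270Q
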