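import Vale.Agent.P270Q.Top2
import Vale.Agent.P270Q.Efx97

/-!
# P270Q: non vanishing for fibred and for irregular klt pairs on normal varieties
-/

open Vale.Agent.P272.K Vale.Agent.P285.H281.FD Vale.Agent.P281Z Vale.Agent.P280Z
open Vale.Agent.P285N.St (SubPair Psef)
open Vale.Agent.P285S.St (HasSec back Fibred Irregular)
open Vale.Agent.P285L.St (SetupC NefC)
open Vale.Agent.P285L.Cn

namespace Vale.Agent.P270Q

theorem hsx {n : ℕ} {V : Mf n} {D : Bd V.X} {t : D.ι → V.X → ℂ} {q : ℕ}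
    (hc : ConnectedSpace V.X) (hP : V.Prj) {X : P277.CSp}
    {C₀ M₀ : Bd X.pt} {μ : V.X → X.pt} {E : Bd V.X} {s : E.ι → V.X → ℂ} (h0 : SetupC n X μ E s)
    (lM : P277.IsLBx X M₀) (lD : P277.IsLBx X (C₀.mul M₀)) (nM : NefC X M₀)
    (nD : NefC X (C₀.mul M₀)) (h : SubPair n E s D t q (back μ C₀)) (hC : Psef n (back μ C₀))
    (hf : Fibred n V.X ∨ (n ≤ 5 ∧ Irregular n V.X)) : HasSec n (back μ C₀) := by
  obtain ⟨A, N, S, pe⟩ := h0.prj
  obtain ⟨Z, res, ex⟩ := h0.res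
  have k1 := P285L.K24.kly hc hP res.cont res.hol lM nM
  have b := birD P270V.A37.bpfg ⟨hc, hP⟩ h0.two pe lM lD h0.div res ex h k1
    (P285L.K24.kly hc hP res.cont res.hol lD nD)
  exact efx (Q := ⟨_, _, _, _, E, s⟩) ⟨hc, hP, b⟩ h hC (P285L.T24.lb res.cont res.hol lM) k1
    (P285N.Tp.iso_refl b.res.lbL) hf

end Vale.Agent.P270Q
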