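import Vale.Agent.P270Q.Top
import Vale.Agent.P270V.NumAll
import Vale.Agent.P285S.Tp.All5

/-!
# P270Q: effective klt pairs on projective manifolds of dimension at most five
-/

open Vale.Agent.P272.K Vale.Agent.P285.H281.FD Vale.Agent.P281Z
open Vale.Agent.P285Z (St.logCan St.Divisor)
open Vale.Agent.P285N.Tp (Rd Wf rows o1g)
open Vale.Agent.P285N.St (SubPair Iso)
open Vale.Agent.P285S.St (HasSec)
open Vale.Agent.P270G

namespace Vale.Agent.P270Q

variable {n : ℕ} {V : Mf n} {Q : Rd V} {D : Bd V.X} {t : D.ι → V.X → ℂ} {q : ℕ}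
  {C M : Bd V.X} {w : Wf V}

theorem five1 (g : NOQ 4) (h5 : n ≤ 5) (hQ : Q.Ok) (hw : IsKahler w)
    (h : SubPair n Q.E Q.s D t q C) (hC : HasSec n C) (hM : IsLB n M) (hn : Nef w M)
    (hi : Iso n Q.L (C.mul M)) (hE : ∀ x, NZ Q.E Q.s x) : NumSemiample n Q.L := by
  have k : Gq Q D t q C M :=
    ⟨hQ, h, hC, hM, (P285N.Tp.nefp n n V V (fun x => x) _ contMDiff_id hM).1 w hw hn, hi⟩
  rcases h5.lt_or_eq with c | rfl
  · exact ga4 n (by omega) V Q D t q C M k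
  · exact ga_e le_rfl rows o1g g P270H.cbg P270U.tru kd3 (gdf_of rgq fpf) P285S.Tp.As.sae5 nsd k hE

theorem five0 (g : NOQ 4) (h5 : n ≤ 5) (hc : ConnectedSpace V.X) (hP : V.Prj) (hw : IsKahler w)
    (hD : St.Divisor n D t) (hq : 1 ≤ q) (hk : Klt n q D t) (hC : HasSec n (St.logCan n q D))
    (hM : IsLB n M) (hm : Nef w M) (hn : Nef w ((St.logCan n q D).mul M)) :
    NumSemiample n ((St.logCan n q D).mul M) := by
  have hL := lb_mul (lb_mul (lb_pow (P277Z.Slc.isLB_can (n := n)) q) hD.lb) hM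
  obtain ⟨⟨A, N, S, hQ⟩, k⟩ := P285N.Tp.smo n V w _ hc hP hw hL hn
  exact five1 g h5 hQ hw (k D t q hD hq hk) hC hM hm (P285N.Tp.iso_refl hL)
    fun _ _ _ => one_ne_zero

end Vale.Agent.P270Q
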