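import Vale.Agent.P270R.Top98
import Vale.Agent.P270R.Gae43
import Vale.Agent.P270Q.Fib97

/-!
# P270Q: the statement with fibred and irregular varieties
-/

open Vale.Agent.P272.K Vale.Agent.P285.H281.FD Vale.Agent.P281Z Vale.Agent.P280Z
open Vale.Agent.P285N.Tp (Wf)
open Vale.Agent.P285N.St (SubPair Psef)
open Vale.Agent.P285S.St (HasSec back Covered Kappa Fibred Irregular)
open Vale.Agent.P285L.St (SetupC NefC NumSemiampleX)
open Vale.Agent.P285.H716.AB (NumDim)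

namespace Vale.Agent.P270Q

theorem alqf {n : ℕ} {V : Mf n} {D : Bd V.X} {t : D.ι → V.X → ℂ} {q : ℕ} {w : Wf V}
    (hc : ConnectedSpace V.X) (hP : V.Prj) (hw : IsKahler w)
    {X : P277.CSp} {C₀ M₀ : Bd X.pt} {μ : V.X → X.pt} {E : Bd V.X} {s : E.ι → V.X → ℂ}
    (h0 : SetupC n X μ E s) (lM : P277.IsLBx X M₀) (lD : P277.IsLBx X (C₀.mul M₀))
    (nM : NefC X M₀) (nD : NefC X (C₀.mul M₀)) (h : SubPair n E s D t q (back μ C₀))
    (hC : Psef n (back μ C₀)) {eff : Prop}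
    (he : eff ↔ HasSec n (back μ C₀) ∨ Fibred n V.X ∨ (n ≤ 5 ∧ Irregular n V.X))
    (hs : (n ≤ 5 ∧ (eff ∨ P277.IsLBx X C₀ ∧ NefC X C₀)) ∨
      (eff ∧ ∃ d, n ≤ d + 5 ∧ Covered n d (back μ (C₀.mul M₀))) ∨ n ≤ 4 ∨
      (∃ r ≤ 1, NumDim w (back μ (C₀.mul M₀)) r) ∨
      ∃ d r, n ≤ d + r + 4 ∧ (d = 0 ∨ Covered n d (back μ (C₀.mul M₀))) ∧
        (r = 0 ∨ (eff ∨ n ≤ 5) ∧ ∃ i j F, IsLB n F ∧ Flat n F ∧
          Kappa n r ((((back μ C₀).pow i).mul ((back μ M₀).pow j)).mul F))) :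
    NumSemiampleX n X μ (C₀.mul M₀) :=
  have e : eff → HasSec n (back μ C₀) := fun c =>
    (he.1 c).elim id (hsx hc hP h0 lM lD nM nD h hC)
  P270R.alqw (P270R.G43.gae5 (P270R.ga5 5 le_rfl)) hc hP hw h0 lM lD nM nD h hC
    (hs.imp (.imp_right (.imp_left e)) (.imp (.imp_left e) (.imp_right (.imp_right
      fun ⟨d, r, a, b, c⟩ => ⟨d, r, a, b, c.imp_right (.imp_left (.imp_left e))⟩))))

end Vale.Agent.P270Q
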