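import Vale.Agent.P270Q.Defs
import Vale.Agent.P285S.At.Num
import Vale.Agent.P285S.Bs2.Big
import Vale.Agent.P285W.Bs.Fpm

/-!
# P270Q: the dichotomy with a free class on a model (row KEZ)
-/

open Set Filter Function
open Vale.Agent.P272.K Vale.Agent.P285.H281.FD Vale.Agent.P281Z Vale.Agent.P280Z
open Vale.Agent.P277.HD (pull)
open Vale.Agent.P285W Vale.Agent.P285W.J Vale.Agent.P285W.Bs
open Vale.Agent.P285W.O (Fm)
open Vale.Agent.P285S Vale.Agent.P285S.At Vale.Agent.P285S.At.NumH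
open Vale.Agent.P285S.B2 (Ba Nu)

noncomputable section

namespace Vale.Agent.P270Q

namespace KezH

theorem lft {n d : ℕ} {W Z : Mf n} {V : Mf d} {θ : W.X → Z.X} {S : Set Z.X} (hθ : Modif n θ S)
    (pW : W.Prj) {j : V.X → Z.X} (hj : HolM d n j) (cV : Cp V) (hx : ∃ x, j x ∉ S) :
    ∃ (M : Mf d) (π : M.X → V.X) (e : M.X → W.X), Cp M ∧ Modif d π (j ⁻¹' S) ∧ HolM d n e ∧
      ∀ z, θ (e z) = j (π z) := by
  have := cV.conn
  obtain ⟨M, π, e, fp, pM⟩ := fpm n n d d W Z V θ j S (add_comm _ _) hθ.hol hj hθ.thin.an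
    (fun _ k => hθ.sbm k) pW cV.prj
  have hπ : Modif d π (j ⁻¹' S) := by
    refine ⟨Thin.pre_of_ex hθ.thin.an hj hx, fp.hπ, fun _ => trivial, fp.dense, fun y _ hy => ?_,
      fun z hz => imm_iff_sbm.2 (fp.sbm z hz)⟩
    obtain ⟨x, k⟩ := hθ.ex (y := j y) hy
    obtain ⟨z, k1, k2⟩ := fp.one y x k hy
    exact ⟨z, k1.1, fun z' k' => k2 z' ⟨k', hθ.inj (k ▸ hy) (by rw [fp.comm, k', k])⟩⟩
  exact ⟨M, π, e, ⟨hπ.conn, pM⟩, hπ, fp.he, fp.comm⟩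

variable {T : CT} (hT : T.OK) {d ν : ℕ} {U M Y Z : Mf (d + 1)} {μ : Z.X → Y.X} {S : Set Y.X}
  {l : T.H Y} {g : T.H Z}

include hT

/-- the degree of a modification is positive -/
theorem deg {q : M.X → U.X} {B : Set U.X} (hq : Modif (d + 1) q B) (hU : Cp U) :
    ∃ c : ℝ, 0 < c ∧ ∀ b, T.int M (T.pull hq.hol b) = c * T.int U b := by
  have := hU.conn
  obtain ⟨c, h1, h2⟩ := Ps.fub1 hT hU.conn (N4.NzeH.kah hT hU.prj) hq.hol
  obtain ⟨y, hy⟩ := hq.thin.2.nonempty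
  obtain ⟨x, rfl⟩ := hq.surj y
  exact ⟨c, h2 x (hq.imm hy), h1⟩

theorem posz (hμ : Modif (d + 1) μ S) (hY : Cp Y) (hl : Nf T Y l) (hν : Nu T Y l ν) (n0 : 0 < ν)
    (kl : Kl T hμ.hol l ν g univ) : T.int Z (T.pull hμ.hol l * g ^ d) ≠ 0 := fun k => by
  obtain ⟨a, ha, he⟩ := kl.big
  obtain ⟨c, hc, h⟩ := deg hT hμ hY
  have nl := nf_pull hT hμ.hol hl
  rw [mul_comm] at k
  have k1 := domp hT (le_of_ef hT zero_le_one (by rwa [one_smul])) (kc_nf hT ha)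
    (bf_nf hT kl.bf) d nl.mn k
  rw [mul_comm] at k1
  refine hν.1 fun y hy => ?_
  obtain ⟨t, rfl⟩ := Nat.exists_eq_add_of_le' n0
  have := B2.zr_of hT (e := 1) ha (fun y hy => by simpa using mn_int hT hy) nl.mn
    (by simpa using nf_dg hT nl) (add_comm 1 d) (by rwa [one_mul]) _
    (mn_pull hT hμ.hol ((hl.mn.pow t).mul hy))
  rw [one_mul, ← map_mul, ← mul_assoc, ← pow_succ', h] at this
  exact (mul_eq_zero.1 this).resolve_left hc.ne'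

theorem kill {D : Bd U.X} {s : D.ι → U.X → ℂ} {p : U.X → Y.X} (hp : HolM (d + 1) (d + 1) p)
    (hU : Cp U) (hμ : Modif (d + 1) μ S) (kl : Kl T hμ.hol l ν g univ) (hM : Cp M)
    {q : M.X → U.X} {B : Set U.X} (hq : Modif (d + 1) q B) {e : M.X → Z.X}
    (he : HolM (d + 1) (d + 1) e) (hc : ∀ z, μ (e z) = p (q z)) (hl : Nf T Y l)
    (hD : IsLB (d + 1) D) (hs : IsSec (d + 1) D s) (hd : Dense {x | NZ D s x})
    (h : ∀ y, Mn T Y y → T.int U (T.c1 U D * T.pull hp (l ^ ν * y)) = 0) :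
    T.int M (T.pull he (g ^ d) * T.pull hq.hol (T.c1 U D)) = 0 := by
  have dd : Dense {x | NZ (pull q D) (fun a y => s a (q y)) x} :=
    (hq.pre_thin (Ps.thin_z hD hs hd)).neg.dense.mono fun _ k => not_not.1 k
  obtain ⟨c, -, u1⟩ := deg hT hq hU
  rw [mul_comm, ← hT.c1.pull hq.hol D hD]
  refine N4.nze T hT d M _ _ _ hM (hq.hol.lb hD) (hq.hol.sec hs) dd fun d' E r hr e' hE k => ?_
  obtain rfl : d = d' := Nat.succ_injective e'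
  rw [← hT.rg.pull_comp hr he (he.comp hr) fun _ => rfl]
  refine kl.kill E _ (he.comp hr) hE (fun _ => trivial) fun y hy => ?_
  have z := N4.znz T hT _ M _ _ _ hM (hq.hol.lb hD) (hq.hol.sec hs) dd
    (mn_pull hT hq.hol (mn_pull hT hp ((hl.mn.pow ν).mul hy)))
    (by rw [hT.c1.pull hq.hol D hD, ← map_mul, u1, h y hy, mul_zero]) d E r hr rfl hE k
  rwa [← hT.rg.pull_comp (he.comp hr) hμ.hol (hp.comp (hq.hol.comp hr)) fun x => (hc (r x)).symm,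
    hT.rg.pull_comp (hq.hol.comp hr) hp (hp.comp (hq.hol.comp hr)) fun _ => rfl,
    hT.rg.pull_comp hr hq.hol (hq.hol.comp hr) fun _ => rfl]

theorem numz {L A : Bd Y.X} {W : Wd Y} {π : U.X → W.W.X}
    (h : HolM (d + 1) (d + 1 + (d + 1) + 1) π) {b : ℕ} (F : Fm W.W U π b) (hb : Ba Y L A)
    (hν : ν < d + 1) (hW : At.Cw T L A ν W h) (hμ : Modif (d + 1) μ S)
    (nu : Nu T Y (T.c1 Y L) ν) (n0 : 0 < ν) (kl : Kl T hμ.hol (T.c1 Y L) ν g univ) :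
    ∃ (Γ : Mf 1) (i : Γ.X → U.X) (hi : HolM 1 (d + 1) i), Cp Γ ∧
      (∀ γ, Imm (d + 1 + (d + 1) + 1) (d + 1 + (d + 1) + 1) F.π (F.i (i γ)) ∧
        NZ W.D1 W.t1 (π (i γ)) ∧ NZ W.D2 W.t2 (π (i γ))) ∧
      (∃ γ, Imm (d + 1) (d + 1) (fun x => W.p1 (π x)) (i γ)) ∧
      T.int Γ (T.pull hi (T.pull (W.h1.comp h) (T.c1 Y L))) ≠ 0 := by
  have hB : O.Bz Y L A := ⟨hb.conn, hb.lL, hb.lA, hb.pos, hb.bA⟩
  have nl := hB.nef hT
  have ok := hW.ok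
  have hU := hW.cp
  have := hU.conn
  have p1 := W.h1.comp h
  have p2 := W.h2.comp h
  have n1 := nf_pull hT p1 nl
  have n2 := nf_pull hT p2 nl
  have nx := nf_pull hT h ok.nef
  obtain ⟨R, r, r1, r2, r3, r4⟩ := O.jac.fib T hT _ _ _ _ U π h F
  obtain ⟨v, hv⟩ := F.et
  obtain ⟨a, ha⟩ := r1.cover v
  have dR := KodA.dense_nz r1 r2 ha ((r3 v).2 hv a ha)
  have g1 := hW.neg.mono (S := π ⁻¹' {w | ¬ NZ W.D1 W.t1 w}) fun _ k => .inl k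
  have g2 := hW.neg.mono (S := π ⁻¹' {w | ¬ NZ W.D2 W.t2 w}) fun _ k => .inr k
  have e1 := ef_pull hT h ok.l1 ok.s1 g1
  have e2 := ef_pull hT h ok.l2 ok.s2 g2
  have c1 := (hT.c1.pull h _ ok.l1).trans (O.TopB.d1 hT ok h)
  have c2 := (hT.c1.pull h _ ok.l2).trans (O.TopB.d2 hT ok h)
  rw [O.TopB.d1 hT ok h] at e1
  rw [O.TopB.d2 hT ok h] at e2
  have z0 : ∀ y, Mn T Y y →
      T.int U (T.pull h (T.c1 W.W W.ξ) * T.pull p2 (T.c1 Y L ^ ν * y)) = 0 := fun y hy => by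
    have := Ob.mn_zero hT h ok.kc (dg_pow hT (nf_dg hT nx) (ν + 1))
      (fun y hy => mn_int hT ((nx.mn.pow _).mul hy)) (fun j => le_antisymm (not_lt.1 fun z =>
        hW.np ⟨j, z⟩) (mn_int hT ((nx.mn.pow _).mul ((nf_pull hT h (kc_nf hT ok.kc)).mn.pow _))))
      (mn_pull hT W.h2 hy)
    rw [← hT.rg.pull_comp h W.h2 p2 fun _ => rfl, pow_succ, mul_assoc] at this
    rw [map_mul (T.pull p2), map_pow, mul_left_comm]
    exact domp hT (le_of_ef hT zero_le_one (by rwa [one_smul])) n2 nx ν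
      (nx.mn.mul (mn_pull hT p2 hy)) this
  have z1 : ∀ {m}, Nf T U m → J.Ef T U (T.pull h (T.c1 W.W W.ξ) - m) → ∀ y, Mn T Y y →
      T.int U ((T.pull h (T.c1 W.W W.ξ) - m) * T.pull p2 (T.c1 Y L ^ ν * y)) = 0 := by
    intro m hm he y hy
    have k := mn_pull hT p2 ((nl.mn.pow ν).mul hy)
    refine le_antisymm ?_ (ef_int hT he k)
    rw [sub_mul, map_sub, z0 y hy, zero_sub, neg_nonpos]
    exact mn_int hT (hm.mn.mul k)
  have eR : J.Ef T U (T.c1 U R) := ⟨R, r, r1, r2, dR, rfl⟩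
  have hY := hb.conn
  have sj := ((nim _ _ U Y _ this p2).2.2 rfl hY).1 (imm hT p2 (hT.c1.deg Y A) hW.a2)
  obtain ⟨y₀, hy₀⟩ := hμ.thin.2.nonempty
  obtain ⟨M, q, e, hM, hq, he, hc⟩ := lft hμ kl.prj p2 hU
    (let ⟨x, k⟩ := sj y₀; ⟨x, fun k' => hy₀ (k ▸ k')⟩)
  have k0 := kill hT p2 hU hμ kl hM hq he hc nl r1 r2 dR fun y hy => by
    rw [map_mul (T.pull p2), map_pow, ← mul_assoc]
    exact Ob.mn_zero hT p2 (hB.kc0 hT) (dg_mul hT (ef_dg hT eR) (dg_pow hT (nf_dg hT n2) ν))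
      (fun y hy => mul_assoc (T.c1 U R) _ y ▸ ef_int hT eR ((n2.mn.pow ν).mul hy))
      (fun _ => by rw [← Nat.sub_sub, r4]; exact hW.nul) hy
  have k1 := kill hT p2 hU hμ kl hM hq he hc nl (h.lb ok.l1) (h.sec ok.s1)
    (g1.dense.mono fun _ k => not_not.1 k) (c1 ▸ z1 n1 e1)
  have k2 := kill hT p2 hU hμ kl hM hq he hc nl (h.lb ok.l2) (h.sec ok.s2)
    (g2.dense.mono fun _ k => not_not.1 k) (c2 ▸ z1 n2 e2)
  obtain ⟨ι, _, Γ, i, hi', h1, h2⟩ := cuts_of Ct.cut T hT d 1 (d + 1) M _ _ (add_comm _ _) hM.conn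
    (mb_pow (bf_pull hT he kl.bf) d) (hq.pre_neg (((Ps.thin_z r1 r2 dR).neg.union hW.neg).union
      ((nim _ _ U Y _ this p1).1 (imm hT p1 (hT.c1.deg Y A) hW.a1)).neg))
  rw [← map_pow] at h2
  have hi := fun j => hq.hol.comp (hi' j)
  have h3 : ∀ a, T.int M (T.pull he (g ^ d) * T.pull hq.hol a) =
      ∑ j, T.int (Γ j) (T.pull (hi j) a) := fun a => by
    rw [h2]
    exact Finset.sum_congr rfl fun j _ => by
      rw [hT.rg.pull_comp (hi' j) hq.hol (hi j) fun _ => rfl]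
  have m0 := curve hT hi r1 r2 (fun j => (h1 j).2.1.mono fun _ k => .inl (.inl k)) (h3 _ ▸ k0)
  have m1 := curve hT hi (h.lb ok.l1) (h.sec ok.s1)
    (fun j => (h1 j).2.1.mono fun _ k => .inl (.inr (.inl k))) (h3 _ ▸ k1)
  have m2 := curve hT hi (h.lb ok.l2) (h.sec ok.s2)
    (fun j => (h1 j).2.1.mono fun _ k => .inl (.inr (.inr k))) (h3 _ ▸ k2)
  have cZ : ConnectedSpace Z.X := hμ.conn
  obtain ⟨δ, u1, -⟩ := Ps.fub1 hT cZ (N4.NzeH.kah hT kl.prj) he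
  obtain ⟨c, c0, u2⟩ := deg hT hq hU
  have cm : ∀ a, T.pull he (T.pull hμ.hol a) = T.pull hq.hol (T.pull p2 a) := fun a => by
    rw [← hT.rg.pull_comp he hμ.hol (p2.comp hq.hol) fun x => (hc x).symm,
      hT.rg.pull_comp hq.hol p2 (p2.comp hq.hol) fun _ => rfl]
  have δ0 : δ ≠ 0 := fun k => by
    have := u1 (T.pull hμ.hol (T.c1 Y A ^ (d + 1)))
    rw [k, zero_mul, cm, u2, map_pow] at this
    exact (mul_pos c0 hW.a2).ne' this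
  have pos := mul_ne_zero δ0 (posz hT hμ hB.cp nl nu n0 kl)
  rw [← u1, map_mul (T.pull he), mul_comm, cm, h3] at pos
  obtain ⟨j, -, hj⟩ := Finset.exists_ne_zero_of_sum_ne_zero pos
  have := (h1 j).1
  obtain ⟨γ, hγ⟩ := (h1 j).2.1.dense.nonempty
  refine ⟨Γ j, _, hi j, ⟨this, (h1 j).2.2 hM.prj⟩,
    fun γ => ⟨(r3 _).1 ((m0 j).2 γ), (m1 j).2 γ, (m2 j).2 γ⟩,
    ⟨γ, not_not.1 fun k => hγ (.inr k)⟩, fun k => hj ?_⟩
  have s1 := (m1 j).1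
  have s2 := (m2 j).1
  rw [c1, map_sub, map_sub, k] at s1
  rw [c2, map_sub, map_sub] at s2
  linarith

end KezH

theorem kez_of (h1 : O0W) (h3 : TAP) (h4 : CONN) (h5 : PRIM) (h6 : FLAT) : KEZ := by
  intro T hT hF d Y Z μ S hμ L A ν g hb hU hN hν n0 n1 kl
  refine (h1 T hT _ Y L A ν hb hU hN hν n0 n1).imp_right (Or.rec id ?_)
  rintro ⟨W, U, π, h, b, F, ⟨τ, hτ⟩, hW⟩
  obtain ⟨Γ, i, hi, cΓ, a1, ⟨γ, a2⟩, a3⟩ := KezH.numz hT h F hb n1 hW hμ hν n0 kl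
  have hc : At (chartAt (Cm b) F.t) F.t := P277Z.at_chart _
  have q1 := W.h1.comp F.hπ
  obtain ⟨k1, k2⟩ := h3.ker _ _ b Y W.W U π F _ _ q1 hc
  have hj := F.emb.hol.comp hi
  obtain ⟨α, hα⟩ := h4 _ Y L F.X _ _ (fun a b y => τ a b (F.π y)) Γ _ (Fin b) _ hb.lL q1
    (W.h2.comp F.hπ) hj cΓ.conn (fun γ => h3.ta _ _ Y L W.W F.X _ _ F.π τ _ W.h1 W.h2 F.hπ
      (a1 γ).1 (hτ _ (by rw [F.fac]; exact (a1 γ).2.1) (by rw [F.fac]; exact (a1 γ).2.2)))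
    (fun k γ => k1 k _) ⟨γ, k2 _ (by simpa only [F.fac] using a2)⟩
  obtain ⟨M, m1, m2, m3⟩ := h5 T hT Γ _ α ((q1.comp hj).lb hb.lL) hα
  refine (a3 ?_).elim
  rw [← hT.rg.pull_comp hi (W.h1.comp h) (q1.comp hj) fun x => by rw [F.fac],
    ← hT.c1.pull (q1.comp hj) L hb.lL, ← m3]
  exact h6 T hT hF Γ M cΓ m1 m2

end Vale.Agent.P270Q
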