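import Vale.Agent.P270Q.Defs
import Vale.Agent.P270G.Dn0
import Vale.Agent.P285W.Kx.Kd2
import Vale.Agent.P285W.Kx.Kxp
import Vale.Agent.P285W.Kx.Efp
import Vale.Agent.P285W.Bs.Kuh
import Vale.Agent.P285S.N4.Scl
import Vale.Agent.P285N.Tp.Har

/-!
# P270Q, row KXQ: the domination of the canonical bundle
-/

open Set Filter Function
open Vale.Agent.P272.K Vale.Agent.P285.H281.FD Vale.Agent.P281Z Vale.Agent.P280Z
open Vale.Agent.P277Z.Slc (Snc isLB_can)
open Vale.Agent.P277.HD (pull)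
open Vale.Agent.P285W Vale.Agent.P285W.Kx Vale.Agent.P285W.Kx.Kp
open Vale.Agent.P285W.Bs (la kb Sz KX Bn)
open Vale.Agent.P285N Vale.Agent.P285N.Tp
open Vale.Agent.P285N.St (SubPair)

noncomputable section

namespace Vale.Agent.P270Q

namespace K80

variable {n : ℕ}

/-- the pair above a model -/
theorem kd {V : Mf n} (Q : Rd V) (hQ : Q.Ok) {T C : Bd V.X} {t : T.ι → V.X → ℂ} {q : ℕ}
    (K : SubPair n Q.E Q.s T t q C) (hE : ∀ x, NZ Q.E Q.s x) (W : Mf n) (u : W.X → V.X)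
    (S : Set V.X) (hu : Modif n u S) (hW : W.Prj) :
    ∃ (κ : Type) (_ : Fintype κ) (R : LR V C κ) (u₁ : R.Y.X → W.X) (S₁ : Set W.X),
      Modif n u₁ S₁ ∧ (R.π = fun x => u (u₁ x)) ∧ R.A.Ok R.m R.N ∧ R.k ≤ R.N ∧
      ∀ H, IsLB n H → Kx.Rg R H := by
  have := hQ.conn
  have hC := (hu.thin.union (Kd2.thin_z K.div.lb K.div.sec K.div.nz)).union
    (Kd2.thin_z hQ.bir.res.lbE hQ.bir.res.secE hQ.bir.res.nzE)
  have hZ := hu.pre_thin hC
  obtain ⟨I, hI, -⟩ := Rs.idl n W _ hZ.1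
  rw [← hI] at hZ
  obtain ⟨R⟩ := Rs.res n n W univ I an_univ
    (subM_open (by rw [← compl_eq_univ_sdiff]; exact hZ.closed.isOpen_compl))
  have h1 : Modif n R.π _ := ⟨hZ, R.ovr⟩
  have hM := hu.comp_of h1 hC (subset_union_left.trans subset_union_left)
    (by rw [hI]; exact image_preimage_subset _ _)
  obtain ⟨m, Ω, h2, h3⟩ := Kd2.core Q hQ K K.lb one_pos (k := 1) rfl hM (R.prj hW) R.snc R.conn
    fun y hy => by
      have k : R.π y ∉ I.Z := fun k => ((R.bad y).1 k).elim hy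
      rw [hI] at k
      exact ⟨k, not_not.1 fun c => k (.inl (.inr c)), not_not.1 fun c => k (.inr c)⟩
  have hq := K.one
  refine ⟨_, inferInstance, ⟨_, _, _, m, _, _, Ω⟩, R.π, _, h1, rfl, h2, ?_,
    fun H hH Δ e s a1 a2 a3 a4 => har n V _ _ _ _ _ e _ s hM a1 hH (fun l hl => ?_) a4⟩
  · show 2 * 1 ≤ 2 * (q * 1)
    omega
  · cases l with
    | none => exact absurd hl (not_lt.2 a2)
    | some l => exact fun y hy => (h3 l (a3 l hl) y hy).elim id fun c => absurd (hE _) c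

theorem ar {N ρ r q a c E j k : ℕ} (hk : k ≤ N) (hN : 0 < N) (hρ : 0 < ρ) (hr : 0 < r)
    (hq : 0 < q) : Bn (j * 2) q (N * (ρ * r * q)) a c E
      (N * (ρ * r * q) * j * a + ρ * q * j * E * k) (N * (ρ * r * q) * j * c + j * E * ρ) := by
  refine ⟨by positivity, ?_, ?_⟩
  · calc _ ≤ N * (ρ * r * q) * j * a + ρ * q * j * E * (N * r) := by
          gcongr
          exact hk.trans (Nat.le_mul_of_pos_right _ hr)
      _ ≤ _ + N * (ρ * r * q) * j * (a + 2 * c + E) := Nat.le_add_right _ _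
      _ = _ := by ring
  · calc _ = q * (N * (ρ * r * q) * j * c) + q * (j * E * ρ) * 1 := by ring
      _ ≤ q * (N * (ρ * r * q) * j * c) + q * (j * E * ρ) * (N * r) := by
          gcongr
          exact Nat.mul_pos hN hr
      _ ≤ _ + N * (ρ * r * q) * j * (q * c + 2 * a + E) := Nat.le_add_right _ _
      _ = _ := by ring

theorem kx {Y : Mf n} {L A C M : Bd Y.X} {r : ℕ} (hY : ConnectedSpace Y.X) (hL : IsLB n L)
    (hA : IsLB n A) (hC : IsLB n C) (hM : IsLB n M) (hr : 0 < r) (hP : Pos n ((L.pow 0).mul A))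
    (hB : Bpf n A) (nM : Tp.Nf Y M) (eC : Eff n C) (cl : cls n L = r • (cls n C + cls n M))
    (hK : ∀ (W : Mf n) (u : W.X → Y.X) (S : Set Y.X), Modif n u S → W.Prj →
      ∃ (κ : Type) (_ : Fintype κ) (R : LR Y C κ) (u₁ : R.Y.X → W.X) (S₁ : Set W.X),
        Modif n u₁ S₁ ∧ (R.π = fun x => u (u₁ x)) ∧ R.A.Ok R.m R.N ∧ R.k ≤ R.N ∧
        ∀ H, IsLB n H → Kx.Rg R H) : KX Y L A := by
  refine ⟨2, fun q hq V u S hu pV => ?_⟩
  obtain ⟨κ, _, R, u₁, S₁, h1, hπ, ok, hk, hR⟩ := hK V u S hu pV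
  have hp : HolM n n R.π := hπ ▸ hu.hol.comp h1.hol
  have ht : ∀ S, Thin n S → Thin n (R.π ⁻¹' S) := fun S k =>
    hπ ▸ h1.pre_thin (hu.pre_thin k)
  have := ok.conn
  obtain ⟨Δ, σ, hΔ, hG⟩ := Lf.bertini R.Y (hp.lb hA)
    (fun x => let ⟨s, s1, s2⟩ := hB (R.π x); ⟨_, hp.sec s1, s2⟩) ok.snc
  have hN := ok.pos
  have q0 : (0 : ℝ) < q := by exact_mod_cast hq
  have N0 : (0 : ℝ) < R.N := by exact_mod_cast hN
  have la1 : ∀ a c, IsLB n (la L A a c) := fun a c => lb_mul (lb_pow hL a) (lb_pow hA c)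
  have la2 : ∀ a c, cls n (la L A a c) = a • cls n L + c • cls n A :=
    fun a c => by rw [cls_mul (lb_pow hL a) (lb_pow hA c), cls_pow hL, cls_pow hA]
  have l0 := lb_mul (lb_pow hL 0) hA
  have hH := lb_mul (lb_pow hM (r * q * R.k)) l0
  obtain ⟨ρ, ρ0, hρ⟩ := efp n Y _ inferInstance hH (nM _ l0 hP _)
  rw [cls_mul (lb_pow hM _) l0, cls_mul (lb_pow hL 0) hA, cls_pow hM, cls_pow hL, zero_smul,
    zero_add] at hρ
  refine ⟨R.Y, u₁, S₁, Option κ, inferInstance, fun o => o.elim Δ R.G,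
    fun o => o.elim 0 fun l => (max (R.m l) 0 : ℤ) / R.N, h1, ok.prj, hG, fun o => ?_, ?_,
    fun a c E j _ _ => ?_⟩
  · cases o <;> simp only [Option.elim]
    · exact ⟨le_rfl, zero_le_one⟩
    · exact ⟨by positivity, div_le_one_of_le₀ (by
        exact_mod_cast max_le (ok.le _) (by positivity)) (by positivity)⟩
  · obtain ⟨e, e0, s, s1, i, x, s2, s3⟩ := eC
    have he : Kx.Ef Y (e • cls n C) := ⟨_, s, lb_pow hC e, cls_pow hC e, s1, x,
      (nz_iff (lb_pow hC e) (fun a b => s1.change a b x) s2).2 s3⟩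
    refine ((ms_om hC R hp ok hG (e : ℕ)).add ((ms_ef hp ht he).smul R.k)).kap hG isLB_can
      (m := R.N * e) (by positivity) ?_ fun o => ?_
    · simp only [map_nsmul]
      module
    · cases o with
      | none => simp
      | some l =>
        simp only [Option.elim]
        push_cast
        field_simp
        nlinarith [mul_nonneg (show (0 : ℝ) ≤ e by positivity)
          (sub_nonneg.2 (le_max_left (R.m l : ℝ) 0))]
  rw [← hπ]
  have hM' : IsLB n ((kb R.π L A E a c).pow j) :=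
    lb_pow (lb_mul (lb_pow isLB_can E) (hp.lb (la1 a c))) j
  obtain ⟨Z₁, z1, z2⟩ := ((ms_om hC R hp ok hG (-(ρ * r * q * j * E : ℕ))).add
    ((ms_ef hp ht hρ).smul (j * E))).mul hG hM'
    (hp.lb (la1 (R.N * (ρ * r * q) * j * a + ρ * q * j * E * R.k)
      (R.N * (ρ * r * q) * j * c + j * E * ρ)))
    (l := R.N * (ρ * r * q)) (by
      rw [cls_pow (lb_mul (lb_pow isLB_can E) (hp.lb (la1 a c))),
        cls_mul (lb_pow isLB_can E) (hp.lb (la1 a c)), cls_pow isLB_can,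
        cls_pull hp (la1 a c), cls_pull hp (la1 _ _), la2, la2, cl]
      simp only [map_add, map_nsmul]
      module)
  refine ⟨_, _, _, _, ar hk hN ρ0 hr hq, (snc_thin_off hG).union z1, fun s hs => ?_⟩
  obtain ⟨s', s1, s2⟩ := z2 _ s hs
  obtain ⟨N₀, n1, n2⟩ := hR _ (la1 _ _) Δ _ s' hG (by simp) (fun l hl => by
      by_contra h
      simp only [Option.elim, max_eq_left (not_lt.1 h)] at hl
      push_cast at hl
      field_simp at hl
      linarith) s1
  refine ⟨N₀, n1, fun x hx φ hφ => ?_⟩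
  have x1 : x ∈ off fun o : Option κ => o.elim Δ R.G := not_not.1 fun k => hx (.inl k)
  have x2 := (s2 x x1 fun k => hx (.inr k)).sz hφ
  have x3 : Sz (pull R.π (la L A _ _)) (fun i y => N₀ i (R.π y))
      (fun y => φ y ^ (R.N * (ρ * r * q))) x := fun i hi => (x2 i hi).imp fun _ k => ⟨k.1, by
      filter_upwards [k.2, (snc_open_off hG).mem_nhds x1, lb_near (hp.lb (la1 _ _)) hi]
        with y a1 a2 a3 using n2 i y a3 a2 ▸ a1⟩
  simpa only [fun y => (congrFun hπ y).symm] using x3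

end K80

/-- **row KXQ** -/
theorem kxq80 : KXQ := by
  intro n _ _ V Q D t q C M g hE
  have hL := g.ok.bir.res.lbL
  obtain ⟨r, H, hr, b⟩ := P285S.N4.scl n V Q.L ⟨g.ok.conn, g.ok.prj⟩ hL (P270G.Dn0H.nf g.ok)
  refine ⟨r, H, hr, b, Bs.kuy n V _ H g.ok.prj b.lL b.lA (K80.kx b.conn b.lL b.lA g.sub.lb g.lb hr
    (b.pos 0) b.bA g.nef g.eff ?_ (K80.kd Q g.ok g.sub hE))⟩
  obtain ⟨u, u1, u2⟩ := g.iso
  rw [cls_pow hL, (cls_eq hL (lb_mul g.sub.lb g.lb)).2 ⟨u, fun a b x ha hb e he =>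
    (u1 a b e x he ha hb).1.analyticAt, fun a b x ha hb =>
      (u1 a b _ x (P277Z.at_chart x) ha hb).2, u2⟩, cls_mul g.sub.lb g.lb]

end Vale.Agent.P270Q
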