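import Vale.Agent.P270Q.Defs
import Vale.Agent.P270G.Top4
import Vale.Agent.P270G.Dn0
import Vale.Agent.P270G.End
import Vale.Agent.P270U.Defs
import Vale.Agent.P285S.Bs2.Mdsn
import Vale.Agent.P285S.Bs2.Scsn

/-!
# P270Q: the assembly
-/

open Set
open Vale.Agent.P272.K Vale.Agent.P285.H281.FD Vale.Agent.P281Z Vale.Agent.P280Z
open Vale.Agent.P285N Vale.Agent.P285W.J Vale.Agent.P285W.Bs
open Vale.Agent.P285N.Tp (Rd Eff Rows O1G)
open Vale.Agent.P285S.B2 (Zr Nu mdsn scsn)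
open Vale.Agent.P280Z.Co (ct ct_ok)
open Vale.Agent.P270G

namespace Vale.Agent.P270Q

theorem noq_of (kx : KXQ) (ke : KEZ) (sg : SGQ) {d : ℕ} (hd : d ≤ 4) (cq : CTQ d) (sn : SNQ d) :
    NOQ d := by
  intro T hT V Q D t q C M g hF hE ν n0 nd nu hN
  have cV : Cp V := ⟨g.ok.conn, g.ok.prj⟩
  have lL := g.ok.bir.res.lbL
  have nl := nf_of hT cV.prj lL (Dn0H.nf g.ok)
  have s0 := sn T hT V Q D t q C M g hF ν n0 nd nu hN
  refine s0 (mdsn T hT _ V _ ν cV (by omega) nl fun D' s l1 l2 l3 => by_contra fun hn => ?_)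
  have := cV.conn
  obtain ⟨Z, μ, S, hμ, γ, k⟩ := cq T hT V Q D t q C M g hF ν D' s nd nu hN l1 l2 l3.nonempty
  obtain ⟨r, H, r0, hb, hU⟩ := kx _ T hT V Q D t q C M g hE
  have r1 : (r : ℝ) ≠ 0 := Nat.cast_ne_zero.2 r0.ne'
  have eP := hT.c1.pow V Q.L r lL
  refine (ke T hT hF d V Z μ S hμ _ H ν γ hb hU ?_ ?_ n0 (by omega)
    ⟨k.prj, k.bf, k.big, fun U p hp cU _ h0 => ?_⟩).elim
    (sg _ (by omega) T hT V Q D t q C M g hF hE r ν H r0 hb hN) ?_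
  · rwa [eP, ScaleX.tr_smul T _ r1]
  · rw [eP]
    exact ⟨mt (EndH.zr_smul r1 ν).1 nu.1, (EndH.zr_smul r1 _).2 nu.2⟩
  · have h1 : ∀ y, Mn T V y → T.int U (T.pull hp (T.pull hμ.hol (T.c1 V Q.L ^ ν * y))) = 0 :=
      fun y hy => by
        have := h0 y hy
        rwa [eP, smul_pow, smul_mul_assoc, map_smul, map_smul, map_smul, smul_eq_mul, mul_eq_zero,
          or_iff_right (pow_ne_zero ν r1)] at this
    by_cases i1 : ∃ x, Imm d (d + 1) (fun x => μ (p x)) x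
    · refine k.kill U p hp cU (fun x => .inr fun c => hn ⟨d, U, _, hμ.hol.comp hp,
        ⟨rfl, cU, i1, fun y hy => ?_⟩, x, c⟩) h1
      rw [hT.rg.pull_comp hp hμ.hol _ fun _ => rfl]
      exact h1 y hy
    by_cases i2 : ∃ x, Imm d (d + 1) p x
    · refine k.kill U p hp cU (fun x => .inl (by_contra fun c => ?_)) h1
      obtain ⟨y, y1, y2⟩ := ((((nim _ _ U Z p cU.conn hp).1 i2).freq x).and_eventually
        ((hμ.hol.comp hp).cont.continuousAt.eventually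
          (hμ.thin.closed.isOpen_compl.mem_nhds c))).exists
      exact i1 ⟨y, .comp (hμ.hol.at _) (hp.at _) (hμ.imm y2) (not_not.1 y1)⟩
    · exact Ps.van0 hT hp (not_exists.1 i2) _
  · rintro ⟨F, p, hp, m₁, m₂, α, a1, a2, a3, a4, a5, a6, a7⟩
    refine s0 (scsn T hT _ V _ ν cV lL nl nu n0 ⟨F, p, hp, m₁, m₂, α * r, a1, a2, by positivity,
      a4, a5, by rw [a6, eP, map_smul, smul_smul], fun y hy => ?_⟩)
    have := a7 y hy
    rwa [eP, smul_pow, smul_mul_assoc, map_smul, mul_smul_comm, map_smul, smul_eq_mul, mul_eq_zero,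
      or_iff_right (pow_ne_zero ν r1)] at this

theorem ga_e {d : ℕ} (hd : d ≤ 4) (R : Rows ct) (o : O1G ct) (no : NOQ d) (cb : P270H.CBG)
    (tru : P270U.TRU) (k3 : KD3) (gd : GDF) (sa : P285S.SA fun e _ L => e ≤ 5 ∧ Eff e L)
    (ns : NSD) {V : Mf (d + 1)} {Q : Rd V} {D : Bd V.X} {t : D.ι → V.X → ℂ} {q : ℕ} {C M : Bd V.X}
    (h : Gq Q D t q C M) (hE : ∀ x, NZ Q.E Q.s x) : NumSemiample (d + 1) Q.L := by
  have hT := R.ok
  have hL := h.ok.bir.res.lbL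
  have cV : Cp V := ⟨h.ok.conn, h.ok.prj⟩
  by_cases h2 : Zr ct V (ct.c1 V Q.L ^ 2)
  · exact h.one R o h2
  by_cases h3 : Zr ct V (ct.c1 V Q.L ^ (d + 1))
  swap
  · obtain ⟨κ, ι, _, A, m, N, π, S, hπ, a, g1, g2, g3, g4⟩ := gd _ ct hT V Q D t q C M h
      (k3 ct hT _ V _ M cV hL h.lb (h.nf R) h.nef h3)
    exact ns ct hT R.flc _ V A.Z π S hπ _ A.P a cV g1.ok.prj hL g1.ok.lb
      (sa _ κ ι A m N g1 ⟨by omega, g2⟩) g3 g4
  classical
  have := cV.conn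
  have ex : ∃ j, Zr ct V (ct.c1 V Q.L ^ (j + 1)) := ⟨d, h3⟩
  have a1 : Nat.find ex ≤ d := Nat.find_min' ex h3
  have a2 : 0 < Nat.find ex := Nat.pos_of_ne_zero fun e => h2 fun y hy => by
    have k := Nat.find_spec ex
    rw [e, zero_add, pow_one] at k
    rw [sq, mul_assoc]
    exact k _ ((nf_of hT cV.prj hL (h.nf R)).mn.mul hy)
  have nu : Nu ct V (ct.c1 V Q.L) (Nat.find ex) := ⟨fun c => Nat.find_min ex
    (m := Nat.find ex - 1) (by omega) (by rwa [Nat.sub_add_cancel a2]), Nat.find_spec ex⟩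
  refine cb _ 1 V Q D t q C M h.ok h.sub (psef_eff h.sub.lb h.eff) h.lb h.nef h.iso (by omega)
    fun c => no ct hT V Q D t q C M h R.flc hE _ a2 a1 nu ?_
  have := tru ct hT _ V V _ _ modif_id _ 1 cV cV.prj one_pos (.inr ⟨hT.c1.deg V Q.L, c⟩)
  rwa [one_smul, hT.rg.pull_id] at this

end Vale.Agent.P270Q
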