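import Vale.Agent.P270Q.Defs2
import Vale.Agent.P270Q.Top
import Vale.Agent.P270Q.Ctq
import Vale.Agent.P270Q.Snq97

/-!
# P270Q: the assembly for singular pairs
-/

open Set Filter Function
open Vale.Agent.P272.K Vale.Agent.P285.H281.FD Vale.Agent.P281Z Vale.Agent.P280Z
open Vale.Agent.P277.HD (pull)
open Vale.Agent.P285N Vale.Agent.P285W.J Vale.Agent.P285W.Bs
open Vale.Agent.P285N.Tp (FLC)
open Vale.Agent.P285S.B2 (Zr Nu SN Ba mdsn scsn)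
open Vale.Agent.P270G

namespace Vale.Agent.P270Q

/-- the contractions over all the divisors -/
def Ct0 (T : CT) {d : ℕ} (V : Mf (d + 1)) (L : Bd V.X) (ν : ℕ) : Prop :=
  ∀ (D : Bd V.X) (s : D.ι → V.X → ℂ), IsLB (d + 1) D → IsSec (d + 1) D s → (∃ x, NZ D s x) →
  ∃ (Z : Mf (d + 1)) (μ : Z.X → V.X) (S : Set V.X) (hμ : Modif (d + 1) μ S) (g : T.H Z),
    Kl T hμ.hol (T.c1 V L) ν g (S ∪ {x | ¬ NZ D s x})

variable {T : CT} {d ν : ℕ} {V : Mf (d + 1)} {L : Bd V.X}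

theorem ctg (nuu : NUU) (rgn : RGN) (ins : INS) (fr : FRM) (hd : d ≤ 4) (mm : MM1 d) (hT : T.OK)
    (hF : FLC T) (lL : IsLB (d + 1) L) (n1 : ν ≤ d) (hN : Neg (d + 1) (Tr T V (T.c1 V L)))
    (dn : Dq T V L ν) : Ct0 T V L ν := by
  intro D s lD sD nz
  obtain ⟨κ, ι, _, A, m, N, π, S, Λ, hπ, y, h, ho, hy, e⟩ := dn D s lD sD nz
  have ok := h.cw.ok
  have nl := nf_of hT ok.prj h.lb h.nef
  have dz := dg_mul hT (dg_pow hT (hT.c1.deg A.Z (P277.HD.pull π L)) ν)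
    (dg_pow hT (hT.c1.deg A.Z Λ) (d - ν))
  rw [Nat.add_sub_cancel' n1] at dz
  obtain ⟨C, hC⟩ := (mm T hT κ ι A m N _ h.cw
    ((nl.mn.pow ν).mul ((bf_nf hT (h.fb.bf T)).mn.pow (d - ν))) dz h.neg).resolve_right
    (fr d hd T hT κ ι A m N hF _ Λ ν n1 h (by
      rw [hT.c1.pull hπ.hol _ lL]
      exact nuu.tr T hT _ _ _ π S hπ _ hN))
  have ok' := hC.cw.ok
  have nΛ := bf_nf hT (hC.fb.bf T)
  refine ⟨C.B.Z, _, _, hπ.comp rem hC.md, T.c1 _ C.Λ, ok'.prj, hC.fb.bf T, hC.fb.kc hT ok'.conn,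
    fun U p hp cU hW h0 => ?_⟩
  by_cases im : ∃ x, Imm d (d + 1) p x
  swap
  · exact Ps.van0 hT hp (not_exists.1 im) _
  have hq := hC.md.hol.comp hp
  have r1 : range (fun x => C.π (p x)) ⊆ (off A.G)ᶜ := by
    rintro _ ⟨x, rfl⟩ c
    obtain (k | ⟨w, ⟨k, -, w1⟩, w2⟩) | k := hW x
    exacts [(ho _ c).1 k, c k (hπ.inj (ho _ c).1 w2 ▸ w1), k (ho _ c).2]
  have r2 : range (fun x => C.π (p x)) ⊆
      Nz T A (T.c1 A.Z (P277.HD.pull π L) ^ ν * T.c1 A.Z Λ ^ (d - ν)) := by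
    by_cases im' : ∃ x, Imm d (d + 1) (fun x => C.π (p x)) x
    · refine P270F.nz_of hT ok h.cw.conn hq cU.conn im' r1 ?_
      rw [show T.c1 A.Z (P277.HD.pull π L) ^ ν * T.c1 A.Z Λ ^ (d - ν) = _ from e,
        hT.rg.pull_comp hp hC.md.hol _ fun _ => rfl,
        ← hT.rg.pull_comp hC.md.hol hπ.hol (hπ.comp rem hC.md).hol fun _ => rfl]
      exact h0 y hy
    rintro _ ⟨x, rfl⟩
    by_contra k
    obtain ⟨w, w1, w2⟩ := ((((nim _ _ U _ p cU.conn hp).1 im).freq x).and_eventually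
      (hq.cont.continuousAt.eventually (hC.md.thin.closed.isOpen_compl.mem_nhds k))).exists
    exact im' ⟨w, .comp (hC.md.hol.at _) (hp.at _) (hC.md.imm w2) (not_not.1 w1)⟩
  have dz' := dg_mul hT (dg_pow hT (hT.c1.deg _ C.Λ) d) (dg_pow hT (hT.c1.deg _ C.Q) 0)
  have := ins d T hT _ _ C.B C.m C.N U p hp _ ok' cU
    ((nΛ.mn.pow d).mul ((nf_of hT ok'.prj hC.lbQ hC.nfQ).mn.pow 0)) dz' (by
      rintro _ ⟨x, rfl⟩
      obtain ⟨l, l1, l2⟩ := (hC.sp _).1 (r2 ⟨x, rfl⟩)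
      exact ⟨l, rgn d T hT _ _ C.B C.m C.N _ C.Λ C.Q l d 0 ok' hC.fb hC.lbQ hC.nfQ hC.rig
        (by omega) rfl, l2⟩)
  rwa [pow_zero, mul_one] at this

open EndH SnfH in
theorem sng (hT : T.OK) (cV : Cp V) (nl : Nf T V (T.c1 V L)) (n0 : 0 < ν)
    (hν : Nu T V (T.c1 V L) ν) (h : Ct0 T V L ν) : ¬ SN T V (T.c1 V L) ν := by
  intro ⟨M₁, M₂, s₁, s₂, c, l1, l2, t1, t2, d1, d2, e, z1, z2, k⟩
  have q1 := Ps.thin_z l1 t1 d1
  have q2 := Ps.thin_z l2 t2 d2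
  have nz : ∀ x, NZ (M₁.mul M₂) (fun i y => s₁ i.1 y * s₂ i.2 y) x → NZ M₁ s₁ x ∧ NZ M₂ s₂ x :=
    fun x hx => by
    obtain ⟨a, ha⟩ := l1.cover x
    obtain ⟨b, hb⟩ := l2.cover x
    exact ⟨fun i hi => left_ne_zero_of_mul (hx (i, b) ⟨hi, hb⟩),
      fun i hi => right_ne_zero_of_mul (hx (a, i) ⟨ha, hi⟩)⟩
  obtain ⟨x₀, hx₀⟩ := have := cV.conn; (q1.union q2).dense.nonempty
  obtain ⟨Z, μ, S, hμ, g, K⟩ := h (M₁.mul M₂) (fun i y => s₁ i.1 y * s₂ i.2 y)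
    (lb_mul l1 l2)
    ⟨fun i e y he hi => (t1.holo _ e y he hi.1).mul (t2.holo _ e y he hi.2), fun i j y hi hj => by
      rw [t1.change _ _ y hi.1 hj.1, t2.change _ _ y hi.2 hj.2]
      exact mul_mul_mul_comm _ _ _ _⟩
    ⟨x₀, fun i hi => mul_ne_zero (not_not.1 (fun c => hx₀ (.inl c) : ¬ ¬ NZ M₁ s₁ x₀) _ hi.1)
      (not_not.1 (fun c => hx₀ (.inr c) : ¬ ¬ NZ M₂ s₂ x₀) _ hi.2)⟩
  have := cV.conn
  have cZ : Cp Z := ⟨hμ.conn, K.prj⟩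
  have := cZ.conn
  obtain ⟨a, kc, bg⟩ := K.big
  have dn : ∀ {M : Bd V.X} {s : M.ι → V.X → ℂ}, Thin (d + 1) {x | ¬ NZ M s x} →
      Dense {x | NZ (pull μ M) (fun i y => s i (μ y)) x} := fun q =>
    (hμ.pre_thin q).2.mono fun _ => not_not.1
  have key : ∀ {M : Bd V.X} {s : M.ι → V.X → ℂ}, IsLB (d + 1) M → IsSec (d + 1) M s →
      Thin (d + 1) {x | ¬ NZ M s x} → Zr T V (T.c1 V M * T.c1 V L ^ ν) →
      (∀ y, NZ (M₁.mul M₂) (fun i y => s₁ i.1 y * s₂ i.2 y) y → NZ M s y) →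
      T.int Z (T.c1 Z (pull μ M) * g ^ d) = 0 := fun {M s} a1 a2 a3 a4 a5 => by
    obtain ⟨r, r1, -⟩ := Ps.fub1 hT cV.conn (kah hT cV.prj) hμ.hol
    refine P285S.N4.nze T hT d Z _ _ _ cZ (hμ.hol.lb a1) (hμ.hol.sec a2) (dn a3)
      fun d' U p hp e' cU hr => ?_
    obtain rfl : d = d' := Nat.succ_injective e'
    refine K.kill U p hp cU (fun x => .inr fun c => hr ⟨x, rfl⟩ (a5 _ c)) fun y hy => ?_
    refine P285S.N4.znz T hT _ Z _ _ _ cZ (hμ.hol.lb a1) (hμ.hol.sec a2) (dn a3)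
      (mn_pull hT hμ.hol ((nl.mn.pow ν).mul hy)) ?_ d U p hp rfl cU hr
    rw [hT.c1.pull hμ.hol M a1, ← map_mul, r1, ← mul_assoc, a4 y hy, mul_zero]
  obtain ⟨ν, rfl⟩ : ∃ k, ν = k + 1 := ⟨ν - 1, by omega⟩
  refine fin1 hT (ν := ν) (α := c) P285S.B2.neg0 cZ (nf_pull hT hμ.hol nl)
    (fun q => hν.1 (zr_down hT hμ cV (by rwa [map_pow]))) K.bf kc bg
    (hμ.hol.lb l1) (hμ.hol.lb l2) (hμ.hol.sec t1) (hμ.hol.sec t2) (dn q1) (dn q2) ?_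
    (key l1 t1 q1 z1 fun y hy => (nz _ hy).1) (key l2 t2 q2 z2 fun y hy => (nz _ hy).2)
    (k.imp (fun q => (Nat.cast_pos.2 q).ne') fun ⟨x, hx⟩ => ?_)
  · rw [hT.c1.pull hμ.hol _ l1, hT.c1.pull hμ.hol _ l2, ← map_sub, e, map_smul]
  · obtain ⟨y, rfl⟩ := hμ.surj x
    exact ⟨y, hx⟩

theorem nog (ke : KEZ) (hT : T.OK) (hF : FLC T) (cV : Cp V) (lL : IsLB (d + 1) L)
    (nl : Nf T V (T.c1 V L)) (n0 : 0 < ν) (nd : ν ≤ d) (nu : Nu T V (T.c1 V L) ν)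
    (hN : Neg (d + 1) (Tr T V (T.c1 V L))) (cq : Ct0 T V L ν) {L' H : Bd V.X} {r : ℝ} (r0 : 0 < r)
    (eP : T.c1 V L' = r • T.c1 V L) (hb : Ba V L' H) (hU : KU V L' H)
    (ca : ¬ P285S.Ob.CA T V (T.c1 V L') (T.c1 V H) ν) : False := by
  have s0 := sng hT cV nl n0 nu cq
  refine s0 (mdsn T hT _ V _ ν cV (by omega) nl fun D' s l1 l2 l3 => by_contra fun hn => ?_)
  have := cV.conn
  obtain ⟨Z, μ, S, hμ, γ, k⟩ := cq D' s l1 l2 l3.nonempty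
  have r1 := r0.ne'
  refine (ke T hT hF d V Z μ S hμ _ H ν γ hb hU ?_ ?_ n0 (by omega)
    ⟨k.prj, k.bf, k.big, fun U p hp cU _ h0 => ?_⟩).elim ca ?_
  · rwa [eP, ScaleX.tr_smul T _ r1]
  · rw [eP]
    exact ⟨mt (EndH.zr_smul r1 ν).1 nu.1, (EndH.zr_smul r1 _).2 nu.2⟩
  · have h1 : ∀ y, Mn T V y → T.int U (T.pull hp (T.pull hμ.hol (T.c1 V L ^ ν * y))) = 0 :=
      fun y hy => by
        have := h0 y hy
        rwa [eP, smul_pow, smul_mul_assoc, map_smul, map_smul, map_smul, smul_eq_mul, mul_eq_zero,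
          or_iff_right (pow_ne_zero ν r1)] at this
    by_cases i1 : ∃ x, Imm d (d + 1) (fun x => μ (p x)) x
    · refine k.kill U p hp cU (fun x => .inr fun c => hn ⟨d, U, _, hμ.hol.comp hp,
        ⟨rfl, cU, i1, fun y hy => ?_⟩, x, c⟩) h1
      rw [hT.rg.pull_comp hp hμ.hol _ fun _ => rfl]
      exact h1 y hy
    by_cases i2 : ∃ x, Imm d (d + 1) p x
    · refine k.kill U p hp cU (fun x => .inl (by_contra fun c => ?_)) h1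
      obtain ⟨y, y1, y2⟩ := ((((nim _ _ U Z p cU.conn hp).1 i2).freq x).and_eventually
        ((hμ.hol.comp hp).cont.continuousAt.eventually
          (hμ.thin.closed.isOpen_compl.mem_nhds c))).exists
      exact i1 ⟨y, .comp (hμ.hol.at _) (hp.at _) (hμ.imm y2) (not_not.1 y1)⟩
    · exact Ps.van0 hT hp (not_exists.1 i2) _
  · rintro ⟨F, p, hp, m₁, m₂, α, a1, a2, a3, a4, a5, a6, a7⟩
    refine s0 (scsn T hT _ V _ ν cV lL nl nu n0 ⟨F, p, hp, m₁, m₂, α * r, a1, a2, by positivity,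
      a4, a5, by rw [a6, eP, map_smul, smul_smul], fun y hy => ?_⟩)
    have := a7 y hy
    rwa [eP, smul_pow, smul_mul_assoc, map_smul, mul_smul_comm, map_smul, smul_eq_mul, mul_eq_zero,
      or_iff_right (pow_ne_zero ν r1)] at this

theorem nor_of (nuu : NUU) (rgn : RGN) (ins : INS) (fr : FRM) (hd : d ≤ 4) (mm : MM1 d)
    (ke : KEZ) (dn : DNR) (pr : PRG) (kx : KXG) (nc : NCG (d + 1)) : NOR d := by
  intro T hT V Q D t q C M g hF ν n0 nd nu hN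
  obtain ⟨κ, ι, _, A, m, N, π, S, k, M', Λ, hπ, k0, gf, ef, kg⟩ := pr _ T hT V Q D t q C M g
  obtain ⟨r, H, r0, hb, hU⟩ := kx _ T hT κ ι A m N _ M' gf ef
  have cV : Cp V := ⟨g.ok.conn, g.ok.prj⟩
  have lL := g.ok.bir.res.lbL
  have nl := nf_of hT cV.prj lL (Dn0H.nf g.ok)
  have cZ : Cp A.Z := ⟨hb.conn, kg.ok.prj⟩
  have l1 := hπ.hol.lb lL
  have e := hT.c1.pull hπ.hol _ lL
  have u1 : Nu T A.Z (T.c1 A.Z (pull π Q.L)) ν :=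
    e ▸ nuu.nu T hT _ ν V A.Z π S hπ _ cV cZ.prj nl nu
  have u2 : Neg (d + 1) (Tr T A.Z (T.c1 A.Z (pull π Q.L))) := e ▸ nuu.tr T hT _ V A.Z π S hπ _ hN
  have r1 : (0 : ℝ) < (r : ℝ) * k := by positivity
  have eP : T.c1 A.Z (((pull π Q.L).pow k).pow r) = ((r : ℝ) * k) • T.c1 A.Z (pull π Q.L) := by
    rw [hT.c1.pow _ _ r (lb_pow l1 k), hT.c1.pow _ _ k l1, smul_smul]
  refine nog ke hT hF cZ l1 (e ▸ nf_pull hT hπ.hol nl) n0 nd u1 u2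
    (ctg nuu rgn ins fr hd mm hT hF l1 nd u2 (dn d T hT V Q D t q C M g ν A.Z π S nd nu hπ cZ.prj))
    r1 eP hb hU (nc T hT κ ι A m N hF _ M' Λ H ν r kg r0 hb ?_ n0 (by omega) ?_)
  · rw [eP]
    exact ⟨mt (EndH.zr_smul r1.ne' ν).1 u1.1, (EndH.zr_smul r1.ne' _).2 u1.2⟩
  · rwa [eP, ScaleX.tr_smul T _ r1.ne']

end Vale.Agent.P270Q
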