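import Vale.Agent.P270Q.Defs
import Vale.Agent.P285M.Sg.All

/-!
# P270Q, row SGG
-/

open scoped Manifold ContDiff Topology
open Set Filter Function
open Vale.Agent.P272.K Vale.Agent.P285.H281.FD Vale.Agent.P281Z Vale.Agent.P280Z
open Vale.Agent.P277.HD (pull)
open Vale.Agent.P285N (Pr)
open Vale.Agent.P285N.Tp (FLC)
open Vale.Agent.P285W Vale.Agent.P285W.J Vale.Agent.P285W.Bs
open Vale.Agent.P285S Vale.Agent.P285S.Sf
open Vale.Agent.P285S.N4 (Nz nze znz exz cov)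
open Vale.Agent.P270H (G0)
open Vale.Agent.P285M

noncomputable section

namespace Vale.Agent.P270Q

theorem png {T : CT} (hT : T.OK) (hF : FLC T) {w r : ℕ} {κ ι : Type} [Fintype κ] {A : Pr w κ ι}
    {m : κ → ℤ} {N : ℕ} {L M : Bd A.Z.X} {Y : Mf r} {H : Bd Y.X} {γ : A.Z.X → Y.X}
    (hγ : HolM w r γ) {z v : T.H A.Z} (hG : G0 A m N L M) (hp : Pse A.Z (cls w A.P))
    (cY : ConnectedSpace Y.X) (lH : IsLB r H) (pH : Pos r H) (sγ : Surjective γ) (hw : w ≤ r + 4)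
    (hN : Neg w (Tr T A.Z (T.c1 A.Z L))) (hz : Mn T A.Z z) (h1 : T.int A.Z (T.c1 A.Z L * z) = 0)
    (h2 : T.int A.Z (T.pull hγ (T.c1 Y H) * z) = 0) (h3 : ∀ k, m k < 0 → Nz T A.Z z (A.G k))
    (hv : Nf T A.Z v) : T.int A.Z (v * z) = 0 := by
  have hA := hG.ok
  have := hA.conn
  obtain ⟨H₀, l₀, p₀⟩ := id hA.prj
  have k0 := hT.c1.pos _ H₀ l₀ p₀
  rcases w with _ | d
  · rw [dg_zero hT (nf_dg hT hv) one_pos, zero_mul, map_zero]
  have k1 := Q41.penk P281Z.Pk.start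
    (P270U.fibd_of P270F.Mg.zc P270U.smd P270H.gag P270H.nvs4) hT hF hG hp cY lH pH hγ sγ hw hN hz
    h1 (by rwa [hT.c1.pull hγ H lH]) (fun k h O σ hO => nze T hT d A.Z O σ z ⟨this, hA.prj⟩ hO.lb
      hO.sec (P270G.NzH.dn hO) fun e U p hp he hU hr => h3 k h e U p hp he hU fun y hy => by
        obtain ⟨a, ha⟩ := hO.lb.cover y
        exact (hO.leq a y ha).mem.1 ((Ld.not_nz hO.lb hO.sec ha).1 (hr hy))) k0
  obtain ⟨c, c0, k2⟩ := kc_sub hT k0 (nf_ty hT hv) (nf_dg hT hv)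
  have k3 := mn_int hT ((kc_nf hT k2).mn.mul hz)
  rw [sub_mul, map_sub, smul_mul_assoc, map_smul, k1, smul_zero, zero_sub] at k3
  exact le_antisymm (neg_nonneg.1 k3) (mn_int hT (hv.mn.mul hz))

theorem sgg : SGG := by
  intro T hT hF n b Y X B l κ ι _ A m N L L' u S₀ hu j π hπ g hg H z cY hG ps j0 cP hn hTr hX hV
  have hA := hG.ok
  have hk := hG.klt
  obtain ⟨x₀, hx₀⟩ := hX.imm
  have cX := hX.cp.conn
  obtain ⟨a, ha⟩ := InjH.kc hT cY
  obtain ⟨sπ, -⟩ := surj T hT _ _ X Y π hπ _ 1 cX cY.conn (dg_pow hT (hT.po.deg ha) n) (by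
    rw [mul_one, map_pow]; exact (imm_pos hT hπ hx₀ ha).ne')
  obtain ⟨R₀, ρ, r1, r2, r3, r4⟩ := P285W.O.JacH.along hT hπ (holM_id (X := X.X))
  obtain ⟨b₀, hb'⟩ := r1.cover x₀
  have z1 : Nz T X z {x | ¬ Imm n n π x} := by
    simpa only [r3] using znz T hT n X R₀ ρ _ hX.cp r1 r2
      (KodA.dense_nz r1 r2 hb' ((r3 x₀).2 hx₀ b₀ hb')) hX.mn (by
        rw [r4, hT.rg.pull_id, hT.rg.pull_id]; exact hX.ram)
  have z2 : ∀ k, m k < 0 → Nz T X z (π ⁻¹' (u '' A.G k)) := by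
    intro k hk d U p hp e hU hr
    by_cases i1 : ∃ x, Imm d n (fun x => π (p x)) x
    · exact hV k hk d U p hp e hU hr i1
    by_cases i2 : ∃ x, Imm d n p x
    · refine z1 d U p hp e hU (range_subset_iff.2 fun x k => ?_)
      obtain ⟨y, y1, y2⟩ := ((((nim d n U X p hU.conn hp).1 i2).freq x).and_eventually
        (hp.cont.continuousAt.eventually (Imm.near k (hπ.at _)))).exists
      exact i1 ⟨y, .comp (f := p) (hπ.at _) (hp.at _) y2 (not_not.1 y1)⟩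
    · exact Ps.van0 hT hp (not_exists.1 i2) _
  obtain ⟨Q, t1, t2⟩ := Nim.gen0 hπ
  have hu' := hu.mono (t1.union hu.thin) subset_union_right
  obtain ⟨M, q, ε, fp, pM⟩ := fpm n n n n X Y A.Z π u _ rfl hπ hu.hol hu'.thin.an
    (fun x k => t2 x fun i => k (.inl i)) hX.cp.prj hA.prj
  have hε := fpb n n X Y A.Z π u _ M q ε fp hπ cX sπ hu'
  have cM := hε.conn
  obtain ⟨z₀, hz₀⟩ := fp.dense.nonempty
  have hq := fp.hπ
  have iq : Imm n n q z₀ := imm_iff_sbm.2 (fp.sbm z₀ hz₀)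
  have t0 : Thin n ({x | ¬ Imm n n q x} ∪ q ⁻¹' (off A.G)ᶜ) :=
    ((nim n n M A.Z q cM hq).1 ⟨z₀, iq⟩).union (Thin.pre_of_ex (snc_thin_off hA.snc).1 hq
      (((imm_iff_sbm.1 iq).freq (hq.at z₀)
        (mem_closure_iff_frequently.1 ((snc_thin_off hA.snc).2 _))).exists))
  obtain ⟨I, e⟩ := idl n M _ t0.1
  obtain ⟨R⟩ := Nt.resl n M Empty Empty.elim I (Nt.snc_empty _ _) (e ▸ t0.2)
  have hμ := R.md.hol
  have hψ : HolM n n fun y => q (R.w y) := hq.comp hμ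
  have cV := R.md.conn
  have pV := R.prj pM
  have ho : ∀ y ∈ off R.G₁, Imm n n (fun y => q (R.w y)) y ∧ q (R.w y) ∈ off A.G :=
    fun y hy => by
      have k := ((R.off y).1 hy).2
      exact ⟨.comp (f := R.w) (hq.at _) (hμ.at _) (not_not.1 fun c => k (e ▸ .inl c)) (R.md.imm k),
        not_not.1 fun c => k (e ▸ .inr c)⟩
  obtain ⟨m₁, a1, a2, a3, -⟩ := Lq.upp n κ _ ι m N A R.V₁ _ R.G₁ hA cV pV hψ R.snc R.conn ho
  have hθ := hε.comp rem R.md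
  have hp := hθ.hol
  have cW : Cp R.V₁ := ⟨cV, pV⟩
  have e4 : T.c1 R.V₁ (pull (fun y => q (R.w y)) L) = j • T.pull (hπ.comp hp) l := by
    rw [hT.c1.pull hψ _ hG.lb, cP, map_smul,
      ← hT.rg.pull_comp hψ hu.hol (hπ.comp hp) fun _ => fp.comm _]
  obtain ⟨y₁, hy₁⟩ := (snc_dense_off R.snc).nonempty
  obtain ⟨a', ha'⟩ := InjH.kc hT ⟨hA.conn, hA.prj⟩
  obtain ⟨sψ, -⟩ := surj T hT _ _ R.V₁ A.Z _ hψ _ 1 cV hA.conn (dg_pow hT (hT.po.deg ha') n) (by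
    rw [mul_one, map_pow]; exact (imm_pos hT hψ (ho y₁ hy₁).1 ha').ne')
  have p2 : Pse R.V₁ (cls n (pull (fun y => q (R.w y)) A.P)) := by
    obtain ⟨η, h⟩ := ps
    refine ⟨hψ.pic η, fun k => ?_⟩
    obtain ⟨i, hi, D, t, h1, h2, h3, x, h4⟩ := h k
    obtain ⟨y, rfl⟩ := sψ x
    exact ⟨i, hi, _, _, hψ.lb h1, by
      rw [cls_pull hψ h1, h2, map_nsmul, map_add, map_nsmul, cls_pull hψ hA.lb], hψ.sec h3, y, h4⟩
  obtain ⟨c, c1, c2⟩ := Ps.fub1 hT cX ((hT.po.kah X).2 (InjH.kc hT hX.cp)) hp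
  obtain ⟨y₀, y1⟩ := (hθ.pre_thin (((nim n n X Y π cX hπ).1 ⟨x₀, hx₀⟩).union
    hθ.thin)).dense.nonempty
  have i1 : Imm n n (fun x => ε (R.w x)) y₀ := hθ.imm fun j => y1 (.inr j)
  obtain ⟨w, w1, w2⟩ := hX.ne
  have aθ := rem n n R.V₁ X _ _ hp (Nim.an_imm hp)
  let C : Option (Option {k // m k < 0}) → Set X.X := fun o => o.elim
    ((fun x => ε (R.w x)) '' {x | ¬ Imm n n (fun x => ε (R.w x)) x})
    fun o => o.elim {x | ¬ Imm n n π x} fun k => π ⁻¹' (u '' A.G k)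
  have z3 := nz_cov (C := C) (Z := ⋃ o, C o) (fun o => match o with
    | none => aθ
    | some none => Nim.an_imm hπ
    | some (some k) => (rem n n A.Z Y u _ hu.hol (snc_thin hA.snc k.1).1).pre hπ)
    (fun o => match o with
    | none => exz T hT n R.V₁ X _ _ _ hθ
    | some none => z1
    | some (some k) => z2 k.1 k.2) fun x => mem_iUnion.1
  have key := png hT hF (hg.comp hp) (z := T.pull hp z) (v := T.pull hp w)
    (L := pull (fun y => q (R.w y)) L) (M := pull (fun y => q (R.w y)) L')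
    ⟨a1, fun l => (a1.le l).lt_of_ne fun c => by
      obtain ⟨y, hy⟩ := (R.conn l).nonempty
      obtain ⟨k, k1, -⟩ := a2 l c y hy
      exact (hk k).ne k1, hψ.lb hG.lb, Tp.nf_comp hψ hA.prj hG.lb hG.nef, hψ.lb hG.lbM,
      Tp.nf_comp hψ hA.prj hG.lbM hG.nfM, by
        refine (cls_pull hψ hG.lb).trans ?_
        rw [hG.cl, map_add, ← cls_pull hψ hA.lb, ← cls_pull hψ hG.lbM]
        rfl⟩ p2 hX.cB hX.lb hX.pos (hX.sur.comp hθ.surj) hn
    (e4 ▸ Sg.trg T hT n R.V₁ Y _ (hπ.comp hp) l _ cW cY ⟨y₀, .comp (f := fun x => ε (R.w x)) (hπ.at _)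
      (hp.at _) (not_not.1 fun j => y1 (.inl j)) i1⟩ j0.ne' hTr)
    (mn_pull hT hp hX.mn) (by
      refine (congrArg (fun x => T.int R.V₁ (x * _)) e4).trans ?_
      rw [smul_mul_assoc, map_smul, hT.rg.pull_comp hp hπ (hπ.comp hp) fun _ => rfl, ← map_mul, c1,
        hX.lz, mul_zero, smul_zero]) (by
      rw [hT.rg.pull_comp hp hg (hg.comp hp) fun _ => rfl, ← map_mul, c1, hX.hz, mul_zero])
    (fun k hk d U p hp' e hU hr => by
      rw [← hT.rg.pull_comp hp' hp (hp.comp hp') fun _ => rfl]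
      refine z3 d U _ (hp.comp hp') e hU (range_subset_iff.2 fun x => by_contra fun i2 => ?_)
      have i3 : Imm n n (fun x => ε (R.w x)) (p x) := by_contra fun i3 =>
        i2 (mem_iUnion.2 ⟨none, _, i3, rfl⟩)
      have i4 : Imm n n π (ε (R.w (p x))) := by_contra fun i4 => i2 (mem_iUnion.2 ⟨some none, i4⟩)
      rcases a3 k hk _ (hr (mem_range_self x)) with i5 | ⟨k, k1, k2⟩
      · exact i5 (.of_comp (hu.hol.at _) (hψ.at _) ((Imm.comp (f := fun x => ε (R.w x)) (hπ.at _)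
          (hp.at _) i4 i3).cng (.of_forall fun _ => fp.comm _)))
      · exact i2 (mem_iUnion.2 ⟨some (some ⟨k, k1⟩), _, k2, (fp.comm _).symm⟩))
    (nf_pull hT hp w1)
  rw [← map_mul, c1] at key
  exact (mul_pos (c2 y₀ i1) w2).ne' key

end Vale.Agent.P270Q
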