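import Vale.Agent.P270Q.Defs
import Vale.Agent.P285M.Pen41c
import Vale.Agent.P285S.Sf.Top2

/-!
# P270Q: the row SGG
-/

open scoped Manifold ContDiff Topology
open Set Filter Function
open Vale.Agent.P272.K Vale.Agent.P285.H281.FD Vale.Agent.P281Z Vale.Agent.P280Z
open Vale.Agent.P277.HD (pull)
open Vale.Agent.P285N (Pr)
open Vale.Agent.P285N.Tp (FLC)
open Vale.Agent.P285W Vale.Agent.P285W.J Vale.Agent.P285W.Bs
open Vale.Agent.P285S Vale.Agent.P285S.Sf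
open Vale.Agent.P285S.N4 (Nz nze znz exz cov)
open Vale.Agent.P285M Vale.Agent.P285M.Sg
open Vale.Agent.P270H (G0)

noncomputable section

namespace Vale.Agent.P270Q.S32

theorem pse_pull {n m : ℕ} {V : Mf n} {Y : Mf m} {β : Pic n V.X} {f : Y.X → V.X}
    (hf : HolM m n f) (sf : Surjective f) (h : Pse V β) : Pse Y (hf.pic β) := by
  obtain ⟨η, h⟩ := h
  refine ⟨hf.pic η, fun k => ?_⟩
  obtain ⟨j, hj, D, t, h1, h2, h3, x, h4⟩ := h k
  obtain ⟨y, rfl⟩ := sf x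
  exact ⟨j, hj, _, _, hf.lb h1, by rw [cls_pull hf h1, h2, map_nsmul, map_add, map_nsmul],
    hf.sec h3, y, h4⟩

theorem pn (st : START) (fd : P270U.FIBD) {T : CT} (hT : T.OK) (hF : FLC T) {w r : ℕ}
    {κ ι : Type} [Fintype κ] {A : Pr w κ ι} {m : κ → ℤ} {N : ℕ} {L M : Bd A.Z.X} {Y : Mf r}
    {H : Bd Y.X} {γ : A.Z.X → Y.X} (hγ : HolM w r γ) {z v : T.H A.Z} (hG : G0 A m N L M)
    (hp : Pse A.Z (cls w A.P)) (cY : ConnectedSpace Y.X) (lH : IsLB r H) (pH : Pos r H)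
    (sγ : Surjective γ) (hw : w ≤ r + 4) (hN : Neg w (Tr T A.Z (T.c1 A.Z L))) (hz : Mn T A.Z z)
    (h1 : T.int A.Z (T.c1 A.Z L * z) = 0) (h2 : T.int A.Z (T.pull hγ (T.c1 Y H) * z) = 0)
    (h3 : ∀ k, m k < 0 → Nz T A.Z z (A.G k)) (hv : Nf T A.Z v) : T.int A.Z (v * z) = 0 := by
  have hA := hG.ok
  have := hA.conn
  obtain ⟨H₀, l₀, p₀⟩ := id hA.prj
  have k0 := hT.c1.pos _ H₀ l₀ p₀
  rcases w with _ | d
  · rw [dg_zero hT (nf_dg hT hv) one_pos, zero_mul, map_zero]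
  have k1 := Q41.penk st fd hT hF hG hp cY lH pH hγ sγ hw hN hz h1
    (by rwa [hT.c1.pull hγ H lH]) (fun k h O σ hO => nze T hT d A.Z O σ z ⟨this, hA.prj⟩ hO.lb
      hO.sec (P270G.NzH.dn hO) fun e U p hp he hU hr => h3 k h e U p hp he hU fun y hy => by
        obtain ⟨a, ha⟩ := hO.lb.cover y
        exact (hO.leq a y ha).mem.1 ((Ld.not_nz hO.lb hO.sec ha).1 (hr hy))) k0
  obtain ⟨c, c0, k2⟩ := kc_sub hT k0 (nf_ty hT hv) (nf_dg hT hv)
  have k3 := mn_int hT ((kc_nf hT k2).mn.mul hz)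
  rw [sub_mul, map_sub, smul_mul_assoc, map_smul, k1, smul_zero, zero_sub] at k3
  exact le_antisymm (neg_nonneg.1 k3) (mn_int hT (hv.mn.mul hz))

theorem sgg32 (st : START) (fd : P270U.FIBD) (h2 : TRG) : SGG := by
  intro T hT hF n b Y X B l κ ι _ A m N L M₀ u S₀ hu j π hπ g hg H z cY hG hps j0 cP hn hTr hX hV
  have hA := hG.ok
  have hk := hG.klt
  obtain ⟨x₀, hx₀⟩ := hX.imm
  have cX := hX.cp.conn
  obtain ⟨a, ha⟩ := InjH.kc hT cY
  obtain ⟨sπ, -⟩ := surj T hT _ _ X Y π hπ _ 1 cX cY.conn (dg_pow hT (hT.po.deg ha) n) (by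
    rw [mul_one, map_pow]; exact (imm_pos hT hπ hx₀ ha).ne')
  obtain ⟨R₀, ρ, r1, r2, r3, r4⟩ := P285W.O.JacH.along hT hπ (holM_id (X := X.X))
  obtain ⟨b₀, hb'⟩ := r1.cover x₀
  have z1 : Nz T X z {x | ¬ Imm n n π x} := by
    simpa only [r3] using znz T hT n X R₀ ρ _ hX.cp r1 r2
      (KodA.dense_nz r1 r2 hb' ((r3 x₀).2 hx₀ b₀ hb')) hX.mn (by
        rw [r4, hT.rg.pull_id, hT.rg.pull_id]; exact hX.ram)
  have z2 : ∀ k, m k < 0 → Nz T X z (π ⁻¹' (u '' A.G k)) := by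
    intro k hk d U p hp e hU hr
    by_cases i1 : ∃ x, Imm d n (fun x => π (p x)) x
    · exact hV k hk d U p hp e hU hr i1
    by_cases i2 : ∃ x, Imm d n p x
    · refine z1 d U p hp e hU (range_subset_iff.2 fun x k => ?_)
      obtain ⟨y, y1, y2⟩ := ((((nim d n U X p hU.conn hp).1 i2).freq x).and_eventually
        (hp.cont.continuousAt.eventually (Imm.near k (hπ.at _)))).exists
      exact i1 ⟨y, .comp (f := p) (hπ.at _) (hp.at _) y2 (not_not.1 y1)⟩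
    · exact Ps.van0 hT hp (not_exists.1 i2) _
  obtain ⟨Q, t1, t2⟩ := Nim.gen0 hπ
  have hu' := hu.mono (t1.union hu.thin) subset_union_right
  obtain ⟨M, q, ε, fp, pM⟩ := fpm n n n n X Y A.Z π u _ rfl hπ hu.hol hu'.thin.an
    (fun x k => t2 x fun i => k (.inl i)) hX.cp.prj hA.prj
  have hε := fpb n n X Y A.Z π u _ M q ε fp hπ cX sπ hu'
  have cM := hε.conn
  obtain ⟨z₀, hz₀⟩ := fp.dense.nonempty
  have hq := fp.hπ
  have iq : Imm n n q z₀ := imm_iff_sbm.2 (fp.sbm z₀ hz₀)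
  have t0 : Thin n ({x | ¬ Imm n n q x} ∪ q ⁻¹' (off A.G)ᶜ) :=
    ((nim n n M A.Z q cM hq).1 ⟨z₀, iq⟩).union (Thin.pre_of_ex (snc_thin_off hA.snc).1 hq
      (((imm_iff_sbm.1 iq).freq (hq.at z₀)
        (mem_closure_iff_frequently.1 ((snc_thin_off hA.snc).2 _))).exists))
  obtain ⟨I, e⟩ := idl n M _ t0.1
  obtain ⟨R⟩ := Nt.resl n M Empty Empty.elim I (Nt.snc_empty _ _) (e ▸ t0.2)
  have hμ := R.md.hol
  have hψ : HolM n n fun y => q (R.w y) := hq.comp hμ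
  have cV := R.md.conn
  have pV := R.prj pM
  have ho : ∀ y ∈ off R.G₁, Imm n n (fun y => q (R.w y)) y ∧ q (R.w y) ∈ off A.G := fun y hy => by
    have k := ((R.off y).1 hy).2
    exact ⟨.comp (f := R.w) (hq.at _) (hμ.at _) (not_not.1 fun c => k (e ▸ .inl c)) (R.md.imm k),
      not_not.1 fun c => k (e ▸ .inr c)⟩
  have sψ := ((nim n n R.V₁ A.Z _ cV hψ).2.2 rfl hA.conn).1
    ((snc_thin_off R.snc).2.nonempty.imp fun y hy => (ho y (not_not.1 hy)).1)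
  obtain ⟨m₁, a1, a2, a3, -⟩ := Lq.upp n κ _ ι m N A R.V₁ _ R.G₁ hA cV pV hψ R.snc R.conn ho
  have hθ := hε.comp rem R.md
  have hp := hθ.hol
  have cW : Cp R.V₁ := ⟨cV, pV⟩
  have e4 : T.c1 R.V₁ (pull (fun y => q (R.w y)) L) = j • T.pull (hπ.comp hp) l := by
    rw [hT.c1.pull hψ _ hG.lb, cP, map_smul,
      ← hT.rg.pull_comp hψ hu.hol (hπ.comp hp) fun _ => fp.comm _]
  obtain ⟨c, c1, c2⟩ := Ps.fub1 hT cX ((hT.po.kah X).2 (InjH.kc hT hX.cp)) hp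
  obtain ⟨y₀, y1⟩ := (hθ.pre_thin (((nim n n X Y π cX hπ).1 ⟨x₀, hx₀⟩).union
    hθ.thin)).dense.nonempty
  have i1 : Imm n n (fun x => ε (R.w x)) y₀ := hθ.imm fun j => y1 (.inr j)
  obtain ⟨w, w1, w2⟩ := hX.ne
  have aθ := rem n n R.V₁ X _ _ hp (Nim.an_imm hp)
  let C : Option (Option {k // m k < 0}) → Set X.X := fun o => o.elim
    ((fun x => ε (R.w x)) '' {x | ¬ Imm n n (fun x => ε (R.w x)) x})
    fun o => o.elim {x | ¬ Imm n n π x} fun k => π ⁻¹' (u '' A.G k)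
  have z3 := nz_cov (C := C) (Z := ⋃ o, C o) (fun o => match o with
    | none => aθ
    | some none => Nim.an_imm hπ
    | some (some k) => (rem n n A.Z Y u _ hu.hol (snc_thin hA.snc k.1).1).pre hπ)
    (fun o => match o with
    | none => exz T hT n R.V₁ X _ _ _ hθ
    | some none => z1
    | some (some k) => z2 k.1 k.2) fun x => mem_iUnion.1
  have cl : cls n (pull (fun y => q (R.w y)) L) =
      cls n (pull (fun y => q (R.w y)) A.P) + cls n (pull (fun y => q (R.w y)) M₀) := by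
    rw [cls_pull hψ hG.lb, hG.cl, map_add, cls_pull hψ hA.lb, cls_pull hψ hG.lbM]
  have ps : Pse R.V₁ (cls n (pull (fun y => q (R.w y)) A.P)) := by
    rw [cls_pull hψ hA.lb]
    exact pse_pull hψ sψ hps
  have key := pn st fd hT hF (hg.comp hp) (z := T.pull hp z) (v := T.pull hp w)
    ⟨a1, fun l => (a1.le l).lt_of_ne fun c => by
      obtain ⟨y, hy⟩ := (R.conn l).nonempty
      obtain ⟨k, k1, -⟩ := a2 l c y hy
      exact (hk k).ne k1, hψ.lb hG.lb, Tp.nf_comp hψ hA.prj hG.lb hG.nef, hψ.lb hG.lbM,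
      Tp.nf_comp hψ hA.prj hG.lbM hG.nfM, cl⟩ ps hX.cB hX.lb hX.pos (hX.sur.comp hθ.surj) hn
    (e4 ▸ h2 T hT n R.V₁ Y _ (hπ.comp hp) l _ cW cY ⟨y₀, .comp (f := fun x => ε (R.w x)) (hπ.at _)
      (hp.at _) (not_not.1 fun j => y1 (.inl j)) i1⟩ j0.ne' hTr)
    (mn_pull hT hp hX.mn) (by
      refine (congrArg (fun x => T.int R.V₁ (x * _)) e4).trans ?_
      rw [smul_mul_assoc, map_smul, hT.rg.pull_comp hp hπ (hπ.comp hp) fun _ => rfl, ← map_mul, c1,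
        hX.lz, mul_zero, smul_zero]) (by
      rw [hT.rg.pull_comp hp hg (hg.comp hp) fun _ => rfl, ← map_mul, c1, hX.hz, mul_zero])
    (fun k hk d U p hp' e hU hr => by
      rw [← hT.rg.pull_comp hp' hp (hp.comp hp') fun _ => rfl]
      refine z3 d U _ (hp.comp hp') e hU (range_subset_iff.2 fun x => by_contra fun i2 => ?_)
      have i3 : Imm n n (fun x => ε (R.w x)) (p x) := by_contra fun i3 =>
        i2 (mem_iUnion.2 ⟨none, _, i3, rfl⟩)
      have i4 : Imm n n π (ε (R.w (p x))) := by_contra fun i4 => i2 (mem_iUnion.2 ⟨some none, i4⟩)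
      rcases a3 k hk _ (hr (mem_range_self x)) with i5 | ⟨k, k1, k2⟩
      · exact i5 (.of_comp (hu.hol.at _) (hψ.at _) ((Imm.comp (f := fun x => ε (R.w x)) (hπ.at _)
          (hp.at _) i4 i3).cng (.of_forall fun _ => fp.comm _)))
      · exact i2 (mem_iUnion.2 ⟨some (some ⟨k, k1⟩), _, k2, (fp.comm _).symm⟩))
    (nf_pull hT hp w1)
  rw [← map_mul, c1] at key
  exact (mul_pos (c2 y₀ i1) w2).ne' key

end Vale.Agent.P270Q.S32
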