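import Vale.Agent.P270Q.Top2
import Vale.Agent.P285M.As.TopL

/-!
# P270Q: klt pairs of dimension at most five with a nef log canonical divisor
-/

open Set
open Vale.Agent.P272.K Vale.Agent.P285.H281.FD Vale.Agent.P281Z Vale.Agent.P280Z
open Vale.Agent.P285N Vale.Agent.P285W Vale.Agent.P285S Vale.Agent.P285S.Tp
open Vale.Agent.P285N.Tp (Rd Wf)
open Vale.Agent.P285W.J (Tr)
open Vale.Agent.P285W.Bs (Cp)
open Vale.Agent.P285S.Tp.F4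
open Vale.Agent.P280Z.Co (ct ct_ok)
open Vale.Agent.P285N.St (SubPair Psef)
open Vale.Agent.P285S.St (HasSec back)
open Vale.Agent.P285L.St (SetupC NefC NumSemiampleX)
open Vale.Agent.P285L.Cn
open Vale.Agent.P285M.As (NVL kl_of eff_ge)
open Vale.Agent.P270V (Cn)

namespace Vale.Agent.P270Q

variable {n : ℕ} {V : Mf n} {Q : Rd V} {D : Bd V.X} {t : D.ι → V.X → ℂ} {q : ℕ} {w : Wf V}

theorem fiveK (p : NVL n) (hn : n ≤ 5) (hQ : Q.Ok) (K : SubPair n Q.E Q.s D t q Q.L) :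
    Semiample n Q.L := by
  have hL := K.lb
  have cV : Cp V := ⟨hQ.conn, hQ.prj⟩
  have r := hQ.bir.res
  obtain ⟨_, W, -, hW, lt, -⟩ := P285N.Tp.lrk2 n V Q D t q Q.L Q.E 1 (fun _ => Q.s) hQ K r.lbE
    (fun _ => r.secE) ⟨0, r.nzE⟩
  obtain ⟨Λ, hΛ⟩ := kl_of ct_ok hQ hW lt
  obtain ⟨B, hB⟩ := hW.md
  have hA := hΛ.gd
  by_cases hN : Neg n (Tr ct V (ct.c1 V Q.L))
  swap
  · refine semi_desc hB hL hW.kp (P285T.Cb.sa_ns n _ _ W.A W.m W.N hA (P285T.Cb.ns_pow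
      (P285T.Cb.ns_pull hB.hol (P285T.Cb.cbx n 1 V Q D t q hQ K (by omega) fun c => hN ?_)) W.k))
    have := P270U.tru ct ct_ok n V V _ _ modif_id _ 1 cV hQ.prj one_pos
      (.inr ⟨ct_ok.c1.deg V Q.L, c⟩)
    rwa [one_smul, ct_ok.rg.pull_id] at this
  have c1 : ct.c1 W.Y W.A.P = (W.k : ℝ) • ct.pull hB.hol (ct.c1 V Q.L) := by
    rw [← ct_ok.c1.pull hB.hol _ hL, ← ct_ok.c1.pow _ _ _ (hB.hol.lb hL)]
    rfl
  refine semi_desc hB hL hW.kp (N4.sab As.sa1 (fun d κ ι _ A m N h c => As.sa5 d κ ι A m N h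
    (lt_of_lt_of_le c hn)) hA fun _ => eff_ge As.tl hA fun ν n0 nl h => ?_)
  obtain ⟨μ, hμ, e⟩ := As.tl.push ct ct_ok n _ _ hA.ok.conn hA.ok.prj hA.ok.lb
    (p ct ct_ok P285N.Tp.flc _ _ W.A W.m W.N Λ ν hΛ h n0 nl (c1 ▸ P270U.tru ct ct_ok n W.Y V _ _ hB
      _ W.k cV hA.ok.prj (Nat.cast_pos.2 hW.kp) (.inl hN)))
  exact eff_ef As.tl hA hμ e

theorem hs_of {L : Bd V.X} (hc : ConnectedSpace V.X) (hL : IsLB n L) (h : Semiample n L) :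
    HasSec n L := by
  obtain ⟨k, hk, h⟩ := h
  obtain ⟨x⟩ := hc.toNonempty
  obtain ⟨s, s1, s2⟩ := h x
  obtain ⟨i, hi⟩ := hL.cover x
  exact ⟨k, hk, s, s1, i, x, hi, s2 i hi⟩

theorem alqy (g : NOR 4) (p : NVL 5) (hc : ConnectedSpace V.X) (hP : V.Prj) (hw : IsKahler w)
    {X : P277.CSp} {C₀ M₀ : Bd X.pt} {μ : V.X → X.pt} {E : Bd V.X} {s : E.ι → V.X → ℂ}
    (h0 : SetupC n X μ E s) (lM : P277.IsLBx X M₀) (lD : P277.IsLBx X (C₀.mul M₀))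
    (nM : NefC X M₀) (nD : NefC X (C₀.mul M₀)) (h : SubPair n E s D t q (back μ C₀))
    (hC : Psef n (back μ C₀))
    (hs : (n ≤ 5 ∧ (HasSec n (back μ C₀) ∨ P277.IsLBx X C₀ ∧ NefC X C₀)) ∨
      Cn w (back μ C₀) (back μ M₀) (back μ (C₀.mul M₀))) :
    NumSemiampleX n X μ (C₀.mul M₀) := by
  refine alqx g hc hP hw h0 lM lD nM nD h hC ?_
  rcases hs with ⟨h5, k | ⟨lC, nC⟩⟩ | k
  · exact .inl ⟨h5, k⟩
  swap
  · exact .inr k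
  rcases h5.lt_or_eq with c | rfl
  · exact .inr (.inl (by omega))
  obtain ⟨A, N, S, pe⟩ := h0.prj
  obtain ⟨Z, res, ex⟩ := h0.res
  have cp : Cp V := ⟨hc, hP⟩
  obtain ⟨c, k1⟩ := P285L.Cn.upbC ct_ok hP res pe lC
  have hQ : P285N.Tp.Rd.Ok ⟨back μ A, N, fun a k y => S a k (μ y), back μ A, E, s⟩ :=
    ⟨hc, hP, birA cp h0.two pe h0.div res ex⟩
  have b := birc cp h0.two pe lC h0.div res ex (P285L.N93.nefd P270V.A37.bpfg ct_ok hQ h h.lb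
    (P285L.K24.kly hc hP res.cont res.hol lC nC) (rgc cp h0.two pe lC h0.div res ex) k1)
  exact .inl ⟨le_rfl, hs_of hc h.lb (fiveK (Q := ⟨_, _, _, _, E, s⟩) p le_rfl ⟨hc, hP, b⟩ h)⟩

end Vale.Agent.P270Q
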